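import Mathlib

/-!
CLT bridge for row 63: for a finite probability space `Ω` (uniform), `Z : Ω → ℝ` centred with
second moment `J > 0`, the normalised sums `X_m = (∑ i, Z (ω i)) / √(m J)` on `Fin m → Ω`
converge weakly to the standard Gaussian.
-/

set_option autoImplicit false
set_option linter.unusedSectionVars false

open MeasureTheory ProbabilityTheory Filter Topology
open scoped BoundedContinuousFunction ENNReal

namespace Crest.Agent.R063.CLT

variable {Ω : Type*} [Fintype Ω] [Nonempty Ω]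

/-- uniform average -/
noncomputable def avg {Ω : Type*} [Fintype Ω] (f : Ω → ℝ) : ℝ := (∑ ω, f ω) / Fintype.card Ω

/-- normalised sum of `m` copies of `Z` -/
noncomputable def nsum (Z : Ω → ℝ) (J : ℝ) (m : ℕ) (ω : Fin m → Ω) : ℝ :=
  (∑ i, Z (ω i)) / Real.sqrt (m * J)

/-- the law of `f` under the uniform measure, as a measure on `ℝ` -/
noncomputable def law {Ω : Type*} [Fintype Ω] (f : Ω → ℝ) : Measure ℝ :=
  ∑ ω : Ω, ((Fintype.card Ω : ℝ≥0∞)⁻¹) • Measure.dirac (f ω)

instance {Ω : Type*} [Fintype Ω] [Nonempty Ω] (f : Ω → ℝ) : IsProbabilityMeasure (law f) := by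
  constructor
  simp only [law, Measure.coe_finsetSum, Finset.sum_apply, Measure.smul_apply, measure_univ,
    smul_eq_mul, mul_one, Finset.sum_const, Finset.card_univ, nsmul_eq_mul]
  exact ENNReal.mul_inv_cancel (by simp) (by simp)

instance {Ω : Type*} [Fintype Ω] (f : Ω → ℝ) : IsFiniteMeasure (law f) := by
  rcases isEmpty_or_nonempty Ω with h | h
  · constructor; simp [law]
  · infer_instance

theorem integrable_law {E : Type*} [NormedAddCommGroup E] {Ω : Type*} [Fintype Ω] [Nonempty Ω]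
    (f : Ω → ℝ) (g : ℝ → E) : Integrable g (law f) := by
  unfold law
  rw [integrable_finsetSum_measure]
  intro ω _
  refine Integrable.smul_measure ?_ (by simp)
  exact integrable_dirac (by simp)

theorem integral_law {E : Type*} [NormedAddCommGroup E] [NormedSpace ℝ E] [CompleteSpace E]
    {Ω : Type*} [Fintype Ω] [Nonempty Ω]
    (f : Ω → ℝ) (g : ℝ → E) :
    ∫ x, g x ∂(law f) = (Fintype.card Ω : ℝ)⁻¹ • ∑ ω, g (f ω) := by
  unfold law
  rw [integral_finsetSum_measure]
  · simp [integral_smul_measure, Finset.smul_sum]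
  intro ω _
  refine Integrable.smul_measure ?_ (by simp)
  exact integrable_dirac (by simp)

theorem avg_eq_integral (f : Ω → ℝ) (g : ℝ → ℝ) :
    avg (fun ω => g (f ω)) = ∫ x, g x ∂(law f) := by
  rw [integral_law, avg, smul_eq_mul, div_eq_inv_mul]

theorem charFun_law_nsum (Z : Ω → ℝ) (J : ℝ) (m : ℕ) (t : ℝ) :
    charFun (law (nsum Z J m)) t =
      (charFun (law (fun ω => Z ω / Real.sqrt J)) ((Real.sqrt m)⁻¹ * t)) ^ m := by
  have key : ∀ (ω : Fin m → Ω),
      Complex.exp (t * (nsum Z J m ω : ℝ) * Complex.I) =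
        ∏ i, Complex.exp ((((Real.sqrt m)⁻¹ * t : ℝ) : ℂ) * ((Z (ω i) / Real.sqrt J : ℝ) : ℂ) * Complex.I) := by
    intro ω
    rw [← Complex.exp_sum]
    congr 1
    rw [← Finset.sum_mul, ← Finset.mul_sum]
    congr 1
    rw [← Complex.ofReal_sum, ← Complex.ofReal_mul, ← Complex.ofReal_mul]
    congr 1
    rw [nsum, ← Finset.sum_div, Real.sqrt_mul (by positivity)]
    ring
  rw [charFun_apply_real, charFun_apply_real, integral_law, integral_law]
  simp_rw [key]
  rw [Complex.real_smul, Complex.real_smul, mul_pow, Finset.sum_pow']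
  congr 1
  simp

/-- the law of the normalised sum as a probability measure -/
noncomputable def lawP (f : Ω → ℝ) : ProbabilityMeasure ℝ := ⟨law f, inferInstance⟩

/-- the standard Gaussian as a probability measure -/
noncomputable def gaussP : ProbabilityMeasure ℝ := ⟨gaussianReal 0 1, inferInstance⟩

theorem tendsto_lawP (Z : Ω → ℝ) (J : ℝ) (hJ : 0 < J) (h0 : avg Z = 0)
    (h2 : avg (fun ω => Z ω ^ 2) = J) :
    Tendsto (fun m : ℕ => (lawP (nsum Z J m) : ProbabilityMeasure ℝ)) atTop (𝓝 gaussP) := by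
  refine ProbabilityMeasure.tendsto_iff_tendsto_charFun.2 fun t ↦ ?_
  have h := tendsto_charFun_inv_sqrt_mul_pow (P := law (fun ω => Z ω / Real.sqrt J))
    (X := fun x => x) (by fun_prop) ?_ ?_ t
  · simp only [Measure.map_id'] at h
    simp only [lawP, gaussP, ProbabilityMeasure.coe_mk]
    simp_rw [charFun_law_nsum Z J]
    rw [charFun_gaussianReal]
    simpa [neg_div] using h
  · rw [← avg_eq_integral (fun ω => Z ω / Real.sqrt J) (fun x => x)]
    simp only [avg] at h0 ⊢
    rw [← Finset.sum_div, div_div, mul_comm, ← div_div, h0, zero_div]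
  · change ∫ x : ℝ, x ^ 2 ∂_ = 1
    rw [← avg_eq_integral (fun ω => Z ω / Real.sqrt J) (fun x => x ^ 2)]
    simp only [avg] at h2 ⊢
    simp_rw [div_pow, Real.sq_sqrt hJ.le]
    rw [← Finset.sum_div, div_div, mul_comm, ← div_div, h2, div_self hJ.ne']

theorem tendsto_avg_bcf (Z : Ω → ℝ) (J : ℝ) (hJ : 0 < J) (h0 : avg Z = 0)
    (h2 : avg (fun ω => Z ω ^ 2) = J) (g : ℝ →ᵇ ℝ) :
    Tendsto (fun m : ℕ => avg (fun ω => g (nsum Z J m ω))) atTop
      (𝓝 (∫ x, g x ∂(gaussianReal 0 1))) := by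
  have h := (ProbabilityMeasure.tendsto_iff_forall_integral_tendsto.1
    (tendsto_lawP Z J hJ h0 h2)) g
  simp_rw [avg_eq_integral (nsum Z J _) g]
  exact h

theorem law_real_apply (f : Ω → ℝ) (s : Set ℝ) (hs : MeasurableSet s) [DecidablePred (· ∈ s)] :
    (law f).real s = avg (fun ω => if f ω ∈ s then (1 : ℝ) else 0) := by
  have h := avg_eq_integral f (fun x => s.indicator (fun _ => (1 : ℝ)) x)
  rw [integral_indicator hs] at h
  simp only [integral_const, smul_eq_mul, mul_one, measureReal_restrict_apply_univ] at h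
  rw [← h]
  congr 1
  funext ω
  simp [Set.indicator_apply]

/-- probabilities of sets with Gaussian-null frontier converge -/
theorem tendsto_avg_set (Z : Ω → ℝ) (J : ℝ) (hJ : 0 < J) (h0 : avg Z = 0)
    (h2 : avg (fun ω => Z ω ^ 2) = J) (s : Set ℝ) (hs : MeasurableSet s)
    (hf : (gaussianReal 0 1) (frontier s) = 0) [DecidablePred (· ∈ s)] :
    Tendsto (fun m : ℕ => avg (fun ω => if nsum Z J m ω ∈ s then (1 : ℝ) else 0)) atTop
      (𝓝 ((gaussianReal 0 1).real s)) := by
  have h := ProbabilityMeasure.tendsto_measure_of_null_frontier_of_tendsto'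
    (tendsto_lawP Z J hJ h0 h2) (E := s) hf
  simp_rw [← law_real_apply _ s hs]
  exact (ENNReal.tendsto_toReal (by simp)).comp h

theorem gaussian_countable {s : Set ℝ} (hs : s.Countable) : (gaussianReal 0 1) s = 0 := by
  have := nullSingletonClass_gaussianReal (μ := 0) (v := 1) one_ne_zero
  exact hs.measure_zero _

theorem tendsto_avg_Ico (Z : Ω → ℝ) (J : ℝ) (hJ : 0 < J) (h0 : avg Z = 0)
    (h2 : avg (fun ω => Z ω ^ 2) = J) (a b : ℝ) :
    Tendsto (fun m : ℕ => avg (fun ω => if a ≤ nsum Z J m ω ∧ nsum Z J m ω < b then (1 : ℝ) else 0))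
      atTop (𝓝 ((gaussianReal 0 1).real (Set.Ico a b))) := by
  classical
  have hf : (gaussianReal 0 1) (frontier (Set.Ico a b)) = 0 := by
    rcases lt_or_ge a b with h | h
    · rw [frontier_Ico h]; exact gaussian_countable (Set.toFinite _).countable
    · rw [Set.Ico_eq_empty_of_le h]; simp
  have h := tendsto_avg_set Z J hJ h0 h2 (Set.Ico a b) measurableSet_Ico hf
  refine h.congr fun m => ?_
  congr 1

theorem tendsto_avg_compl_Ico (Z : Ω → ℝ) (J : ℝ) (hJ : 0 < J) (h0 : avg Z = 0)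
    (h2 : avg (fun ω => Z ω ^ 2) = J) (a b : ℝ) :
    Tendsto (fun m : ℕ => avg (fun ω => if ¬ (a ≤ nsum Z J m ω ∧ nsum Z J m ω < b) then (1 : ℝ) else 0))
      atTop (𝓝 ((gaussianReal 0 1).real (Set.Ico a b)ᶜ)) := by
  classical
  have hf : (gaussianReal 0 1) (frontier (Set.Ico a b)ᶜ) = 0 := by
    rw [frontier_compl]
    rcases lt_or_ge a b with h | h
    · rw [frontier_Ico h]; exact gaussian_countable (Set.toFinite _).countable
    · rw [Set.Ico_eq_empty_of_le h]; simp
  have h := tendsto_avg_set Z J hJ h0 h2 (Set.Ico a b)ᶜ measurableSet_Ico.compl hf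
  refine h.congr fun m => ?_
  congr 1

section moments

theorem avg_add (f g : Ω → ℝ) : avg (fun ω => f ω + g ω) = avg f + avg g := by
  simp [avg, Finset.sum_add_distrib, add_div]

theorem avg_mul_left (c : ℝ) (f : Ω → ℝ) : avg (fun ω => c * f ω) = c * avg f := by
  simp [avg, ← Finset.mul_sum, mul_div_assoc]

theorem avg_const (c : ℝ) : avg (fun _ : Ω => c) = c := by
  simp [avg]

theorem avg_mono {f g : Ω → ℝ} (h : ∀ ω, f ω ≤ g ω) : avg f ≤ avg g := by
  unfold avg
  gcongr with ω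
  exact h ω

theorem avg_succ {m : ℕ} (F : (Fin (m + 1) → Ω) → ℝ) :
    avg F = avg (fun a : Ω => avg (fun v : Fin m → Ω => F (Fin.cons a v))) := by
  unfold avg
  rw [← (Fin.consEquiv (fun _ : Fin (m + 1) => Ω)).sum_comp, Fintype.sum_prod_type]
  rw [← Finset.sum_div, div_div]
  congr 1
  simp [pow_succ]

theorem avg_sum (Z : Ω → ℝ) (h0 : avg Z = 0) (m : ℕ) :
    avg (fun ω : Fin m → Ω => ∑ i, Z (ω i)) = 0 := by
  induction m with
  | zero => simp [avg]
  | succ m ih =>
    rw [avg_succ]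
    simp only [Fin.sum_univ_succ, Fin.cons_zero, Fin.cons_succ]
    simp only [avg_add, avg_const, ih, h0, add_zero]

theorem avg_sum_sq (Z : Ω → ℝ) (J : ℝ) (h0 : avg Z = 0)
    (h2 : avg (fun ω => Z ω ^ 2) = J) (m : ℕ) :
    avg (fun ω : Fin m → Ω => (∑ i, Z (ω i)) ^ 2) = m * J := by
  induction m with
  | zero => simp [avg]
  | succ m ih =>
    rw [avg_succ]
    simp only [Fin.sum_univ_succ, Fin.cons_zero, Fin.cons_succ]
    have : ∀ a : Ω, avg (fun v : Fin m → Ω => (Z a + ∑ i, Z (v i)) ^ 2) = Z a ^ 2 + m * J := by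
      intro a
      have h : ∀ v : Fin m → Ω, (Z a + ∑ i, Z (v i)) ^ 2 =
          (Z a ^ 2 + (2 * Z a) * (∑ i, Z (v i))) + (∑ i, Z (v i)) ^ 2 := fun v => by ring
      simp_rw [h]
      rw [avg_add, avg_add, avg_const, avg_mul_left, avg_sum Z h0, ih]
      ring
    simp_rw [this]
    rw [avg_add, avg_const, h2]
    push_cast; ring

/-- second moment of the normalised sum is `1` -/
theorem avg_nsum_sq (Z : Ω → ℝ) (J : ℝ) (hJ : 0 < J) (h0 : avg Z = 0)
    (h2 : avg (fun ω => Z ω ^ 2) = J) (m : ℕ) (hm : 0 < m) :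
    avg (fun ω => nsum Z J m ω ^ 2) = 1 := by
  have hm' : (0 : ℝ) < m := by exact_mod_cast hm
  have h : ∀ ω : Fin m → Ω, nsum Z J m ω ^ 2 = (m * J)⁻¹ * (∑ i, Z (ω i)) ^ 2 := by
    intro ω
    rw [nsum, div_pow, Real.sq_sqrt (by positivity), div_eq_inv_mul]
  simp_rw [h]
  rw [avg_mul_left, avg_sum_sq Z J h0 h2, inv_mul_cancel₀ (by positivity)]

/-- first moment of the normalised sum is `0` -/
theorem avg_nsum (Z : Ω → ℝ) (J : ℝ) (h0 : avg Z = 0) (m : ℕ) :
    avg (fun ω => nsum Z J m ω) = 0 := by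
  have h : ∀ ω : Fin m → Ω, nsum Z J m ω = (Real.sqrt (m * J))⁻¹ * (∑ i, Z (ω i)) := by
    intro ω
    rw [nsum, div_eq_inv_mul]
  simp_rw [h]
  rw [avg_mul_left, avg_sum Z h0, mul_zero]

end moments

section gaussian

theorem integrable_sq_gaussian : Integrable (fun x : ℝ => x ^ 2) (gaussianReal 0 1) := by
  have h := (memLp_id_gaussianReal (μ := 0) (v := 1) 2).integrable_sq
  simpa using h

theorem integral_sq_gaussian : ∫ x, x ^ 2 ∂(gaussianReal 0 1) = 1 := by
  have h := variance_id_gaussianReal (μ := 0) (v := 1)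
  rw [variance_eq_integral (by fun_prop)] at h
  simpa using h

end gaussian

/-- cutoff function: `1` on `|x| ≤ R - 1`, `0` on `|x| ≥ R` -/
noncomputable def cut (R x : ℝ) : ℝ := max 0 (min 1 (R - |x|))

theorem cut_nonneg (R x : ℝ) : 0 ≤ cut R x := le_max_left _ _
theorem cut_le_one (R x : ℝ) : cut R x ≤ 1 := by
  unfold cut; exact max_le (by norm_num) (min_le_left _ _)
theorem cut_eq_one {R x : ℝ} (h : |x| ≤ R - 1) : cut R x = 1 := by
  unfold cut; rw [min_eq_left (by linarith)]; norm_num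
theorem cut_eq_zero {R x : ℝ} (h : R ≤ |x|) : cut R x = 0 := by
  unfold cut; rw [max_eq_left]; exact (min_le_right _ _).trans (by linarith)
theorem continuous_cut (R : ℝ) : Continuous (cut R) := by
  unfold cut; fun_prop

/-- `x ↦ x² cut R x` as a bounded continuous function -/
noncomputable def sqcut (R : ℝ) (_hR : 0 ≤ R) : ℝ →ᵇ ℝ :=
  BoundedContinuousFunction.ofNormedAddCommGroup (fun x => x ^ 2 * cut R x)
    (by have := continuous_cut R; fun_prop) (R ^ 2) (by
      intro x
      rw [Real.norm_eq_abs, abs_of_nonneg (mul_nonneg (sq_nonneg x) (cut_nonneg R x))]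
      rcases le_or_gt R |x| with h | h
      · rw [cut_eq_zero h, mul_zero]; positivity
      · have h1 : x ^ 2 ≤ R ^ 2 := by
          rw [← sq_abs x]; exact pow_le_pow_left₀ (abs_nonneg x) h.le 2
        calc x ^ 2 * cut R x ≤ x ^ 2 * 1 := by gcongr; exact cut_le_one R x
          _ ≤ R ^ 2 := by linarith)

/-- tail of the second moment -/
theorem eventually_tail (Z : Ω → ℝ) (J : ℝ) (hJ : 0 < J) (h0 : avg Z = 0)
    (h2 : avg (fun ω => Z ω ^ 2) = J) (R : ℝ) (hR0 : 0 ≤ R) (ε : ℝ) (hε : 0 < ε) :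
    ∀ᶠ m : ℕ in atTop, avg (fun ω => if R ≤ |nsum Z J m ω| then nsum Z J m ω ^ 2 else 0) ≤
      (∫ x in {x : ℝ | R - 1 ≤ |x|}, x ^ 2 ∂(gaussianReal 0 1)) + ε := by
  have h := tendsto_avg_bcf Z J hJ h0 h2 (sqcut R hR0)
  have hms : MeasurableSet {x : ℝ | R - 1 ≤ |x|} := by measurability
  have hlow : 1 - (∫ x in {x : ℝ | R - 1 ≤ |x|}, x ^ 2 ∂(gaussianReal 0 1)) ≤
      ∫ x, sqcut R hR0 x ∂(gaussianReal 0 1) := by
    have e1 : 1 - (∫ x in {x : ℝ | R - 1 ≤ |x|}, x ^ 2 ∂(gaussianReal 0 1)) =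
        ∫ x : ℝ, x ^ 2 - Set.indicator {x : ℝ | R - 1 ≤ |x|} (fun x => x ^ 2) x ∂(gaussianReal 0 1) := by
      rw [integral_sub integrable_sq_gaussian (integrable_sq_gaussian.indicator hms),
        integral_sq_gaussian, integral_indicator hms]
    rw [e1]
    refine integral_mono (integrable_sq_gaussian.sub (integrable_sq_gaussian.indicator hms))
      ((sqcut R hR0).integrable _) fun x => ?_
    change x ^ 2 - Set.indicator {x : ℝ | R - 1 ≤ |x|} (fun x => x ^ 2) x ≤ x ^ 2 * cut R x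
    by_cases hx : R - 1 ≤ |x|
    · rw [Set.indicator_of_mem (show x ∈ {x : ℝ | R - 1 ≤ |x|} from hx)]
      have := mul_nonneg (sq_nonneg x) (cut_nonneg R x)
      linarith
    · rw [Set.indicator_of_notMem (show x ∉ {x : ℝ | R - 1 ≤ |x|} from hx),
        cut_eq_one (by push Not at hx; exact hx.le)]
      linarith
  have h3 : ∀ᶠ m : ℕ in atTop, 1 - (∫ x in {x : ℝ | R - 1 ≤ |x|}, x ^ 2 ∂(gaussianReal 0 1)) - ε <
      avg (fun ω => sqcut R hR0 (nsum Z J m ω)) := by
    refine h.eventually_const_lt ?_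
    linarith
  filter_upwards [h3, eventually_gt_atTop 0] with m hm hm0
  have h4 : avg (fun ω => if R ≤ |nsum Z J m ω| then nsum Z J m ω ^ 2 else 0) +
      avg (fun ω => sqcut R hR0 (nsum Z J m ω)) ≤ 1 := by
    rw [← avg_nsum_sq Z J hJ h0 h2 m hm0, ← avg_add]
    refine avg_mono fun ω => ?_
    change (if R ≤ |nsum Z J m ω| then nsum Z J m ω ^ 2 else 0) +
      nsum Z J m ω ^ 2 * cut R (nsum Z J m ω) ≤ nsum Z J m ω ^ 2
    split_ifs with hx
    · rw [cut_eq_zero hx]; linarith
    · have := mul_le_mul_of_nonneg_left (cut_le_one R (nsum Z J m ω)) (sq_nonneg (nsum Z J m ω))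
      linarith
  linarith

/-- bounded continuous `min |x| 1` -/
noncomputable def minabs : ℝ →ᵇ ℝ :=
  BoundedContinuousFunction.ofNormedAddCommGroup (fun x => min |x| 1)
    (by fun_prop) 1 (by
      intro x
      rw [Real.norm_eq_abs, abs_of_nonneg (le_min (abs_nonneg x) zero_le_one)]
      exact min_le_right _ _)

theorem minabs_pos : 0 < ∫ x, minabs x ∂(gaussianReal 0 1) := by
  have hn : 0 ≤ (minabs : ℝ → ℝ) :=
    fun x => (le_min (abs_nonneg x) zero_le_one : (0 : ℝ) ≤ min |x| 1)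
  rw [integral_pos_iff_support_of_nonneg hn (minabs.integrable _)]
  have hs : Function.support (minabs : ℝ → ℝ) = {0}ᶜ := by
    ext x
    change min |x| 1 ≠ 0 ↔ x ∉ ({0} : Set ℝ)
    rw [Set.mem_singleton_iff]
    constructor
    · rintro h rfl; simp at h
    · intro h; exact (lt_min (abs_pos.2 h) one_pos).ne'
  have h1 : (gaussianReal 0 1) ({0}ᶜ : Set ℝ) = 1 := by
    rw [prob_compl_eq_one_iff (measurableSet_singleton 0)]
    exact gaussian_countable (Set.countable_singleton 0)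
  rw [hs, h1]
  exact one_pos

/-- the first absolute moment is bounded below -/
theorem eventually_abs (Z : Ω → ℝ) (J : ℝ) (hJ : 0 < J) (h0 : avg Z = 0)
    (h2 : avg (fun ω => Z ω ^ 2) = J) :
    ∀ᶠ m : ℕ in atTop, (∫ x, minabs x ∂(gaussianReal 0 1)) / 2 ≤ avg (fun ω => |nsum Z J m ω|) := by
  have h := tendsto_avg_bcf Z J hJ h0 h2 minabs
  have hp := minabs_pos
  filter_upwards [h.eventually_const_lt (show (∫ x, minabs x ∂(gaussianReal 0 1)) / 2 < _ by linarith)]
    with m hm
  refine hm.le.trans (avg_mono fun ω => ?_)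
  exact min_le_left _ _

end Crest.Agent.R063.CLT
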