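import Crest.Agent.R063.Fourier

/-!
# R063: read-once composition and the reduction of S0085 to finite seeds

`Ach μ D s` : some Boolean function on a finite cube has mean `μ` (as a `±1` function), degree at most `D`
and singleton coefficient sum exactly `s`.
-/

set_option autoImplicit false
set_option linter.unusedSectionVars false

open Finset

namespace Crest.Agent.R063

/-- `±1`-valued version of a Boolean function. -/
def sgf {ι : Type} (f : (ι → Bool) → Bool) : (ι → Bool) → ℝ := fun x => sg (f x)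

section Comp

variable {ι : Type} [Fintype ι] [DecidableEq ι]
variable {κ : ι → Type} [∀ i, Fintype (κ i)] [∀ i, DecidableEq (κ i)]

/-- read-once composition -/
def comp (f : (ι → Bool) → Bool) (g : ∀ i, (κ i → Bool) → Bool) :
    ((Σ i, κ i) → Bool) → Bool := fun x => f (fun i => g i (fun j => x ⟨i, j⟩))

/-- independence -/
lemma ev_prod (φ : ∀ i, (κ i → Bool) → ℝ) :
    ev (fun x : (Σ i, κ i) → Bool => ∏ i, φ i (fun j => x ⟨i, j⟩)) = ∏ i, ev (φ i) := by
  unfold ev
  rw [Finset.prod_div_distrib, Finset.prod_pow_eq_pow_sum, Fintype.card_sigma]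
  congr 1
  rw [Finset.prod_univ_sum]
  simp only [Fintype.piFinset_univ]
  refine Fintype.sum_equiv (Equiv.piCurry (fun _ _ => Bool)) _ _ fun x => ?_
  rfl

/-- partial derivative of the multilinear extension -/
noncomputable def dF (f : (ι → Bool) → Bool) (μ : ι → ℝ) (i : ι) : ℝ :=
  ∑ S : Finset ι, if i ∈ S then coef (sgf f) S * ∏ k ∈ S.erase i, μ k else 0

/-- multilinear extension -/
noncomputable def mF (f : (ι → Bool) → Bool) (μ : ι → ℝ) : ℝ :=
  ∑ S : Finset ι, coef (sgf f) S * ∏ k ∈ S, μ k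

lemma sgf_comp (f : (ι → Bool) → Bool) (g : ∀ i, (κ i → Bool) → Bool) (x : (Σ i, κ i) → Bool) :
    sgf (comp f g) x = ∑ S : Finset ι, coef (sgf f) S * ∏ i ∈ S, sgf (g i) (fun j => x ⟨i, j⟩) := by
  have := fourier_inversion (sgf f) (fun i => g i (fun j => x ⟨i, j⟩))
  simpa [chi, sgf, comp] using this

lemma ev_comp (f : (ι → Bool) → Bool) (g : ∀ i, (κ i → Bool) → Bool) :
    ev (sgf (comp f g)) = mF f (fun i => ev (sgf (g i))) := by
  have h : sgf (comp f g) = fun x => ∑ S : Finset ι, coef (sgf f) S *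
      ∏ i ∈ S, sgf (g i) (fun j => x ⟨i, j⟩) := by
    ext x; exact sgf_comp f g x
  rw [h, ev_sum]
  unfold mF
  refine Finset.sum_congr rfl fun S _ => ?_
  rw [ev_smul]
  congr 1
  have h2 : (fun x : (Σ i, κ i) → Bool => ∏ i ∈ S, sgf (g i) (fun j => x ⟨i, j⟩))
      = fun x => ∏ i, (fun (i : ι) (z : κ i → Bool) => if i ∈ S then sgf (g i) z else 1) i
        (fun j => x ⟨i, j⟩) := by
    ext x
    rw [← Finset.prod_filter]
    congr 1; ext i; simp
  rw [h2, ev_prod (fun (i : ι) (z : κ i → Bool) => if i ∈ S then sgf (g i) z else 1)]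
  rw [← Finset.prod_filter_mul_prod_filter_not Finset.univ (fun i => i ∈ S)]
  have h3 : ∏ x ∈ Finset.univ with x ∉ S, ev (fun z : κ x → Bool => if x ∈ S then sgf (g x) z else 1) = 1 := by
    refine Finset.prod_eq_one fun i hi => ?_
    have : i ∉ S := by simpa using hi
    simp only [this, if_false]
    exact ev_const 1
  rw [h3, mul_one]
  have h4 : (Finset.univ.filter fun i => i ∈ S) = S := by ext i; simp
  rw [h4]
  refine Finset.prod_congr rfl fun i hi => ?_
  simp [hi]

lemma deg_comp (f : (ι → Bool) → Bool) (g : ∀ i, (κ i → Bool) → Bool) (D : ι → ℕ) (D' : ℕ)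
    (hg : ∀ i, Deg (sgf (g i)) (D i))
    (hD : ∀ S : Finset ι, coef (sgf f) S ≠ 0 → ∑ i ∈ S, D i ≤ D') :
    Deg (sgf (comp f g)) D' := by
  have h : sgf (comp f g) = fun x => ∑ S : Finset ι, coef (sgf f) S *
      ∏ i ∈ S, sgf (g i) (fun j => x ⟨i, j⟩) := by
    ext x; exact sgf_comp f g x
  rw [h]
  refine Deg.sum _ fun S _ => ?_
  by_cases hS : coef (sgf f) S = 0
  · simp only [hS, zero_mul]; exact deg_const 0 D'
  · refine Deg.smul _ (Deg.mono ?_ (hD S hS))
    refine Deg.prod (F := fun i (x : (Σ i, κ i) → Bool) => sgf (g i) (fun j => x ⟨i, j⟩)) S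
      fun i _ => ?_
    exact (hg i).comap (Function.Embedding.sigmaMk i)

lemma lin_comp (f : (ι → Bool) → Bool) (g : ∀ i, (κ i → Bool) → Bool) :
    lin (sgf (comp f g)) = ∑ i, dF f (fun i => ev (sgf (g i))) i * lin (sgf (g i)) := by
  have h : sgf (comp f g) = fun x => ∑ S : Finset ι, coef (sgf f) S *
      ∏ i ∈ S, sgf (g i) (fun j => x ⟨i, j⟩) := by
    ext x; exact sgf_comp f g x
  unfold lin
  rw [Fintype.sum_sigma]
  refine Finset.sum_congr rfl fun i _ => ?_
  rw [Finset.mul_sum]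
  refine Finset.sum_congr rfl fun j _ => ?_
  rw [coef_singleton, h]
  have h1 : (fun x : (Σ i, κ i) → Bool => (∑ S : Finset ι, coef (sgf f) S *
      ∏ i ∈ S, sgf (g i) (fun j => x ⟨i, j⟩)) * sg (x ⟨i, j⟩))
      = fun x => ∑ S : Finset ι, coef (sgf f) S *
        ((∏ i ∈ S, sgf (g i) (fun j => x ⟨i, j⟩)) * sg (x ⟨i, j⟩)) := by
    ext x; rw [Finset.sum_mul]; refine Finset.sum_congr rfl fun S _ => ?_; ring
  rw [h1, ev_sum]
  unfold dF
  rw [Finset.sum_mul]
  refine Finset.sum_congr rfl fun S _ => ?_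
  rw [ev_smul]
  -- the product function
  set φ : ∀ i', (κ i' → Bool) → ℝ := fun i' z =>
    (if i' ∈ S then sgf (g i') z else 1) * (if h : i' = i then sg (z (h ▸ j)) else 1) with hφ
  have h2 : (fun x : (Σ i, κ i) → Bool => (∏ i ∈ S, sgf (g i) (fun j => x ⟨i, j⟩)) * sg (x ⟨i, j⟩))
      = fun x => ∏ i', φ i' (fun j => x ⟨i', j⟩) := by
    ext x
    simp only [hφ]
    rw [Finset.prod_mul_distrib]
    congr 1
    · rw [← Finset.prod_filter]
      congr 1; ext i; simp
    · rw [Finset.prod_eq_single i]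
      · simp
      · intro b _ hb; simp [hb]
      · intro hi; exact absurd (Finset.mem_univ i) hi
  rw [h2, ev_prod]
  rw [← Finset.mul_prod_erase Finset.univ _ (Finset.mem_univ i)]
  have h3 : ev (φ i) = if i ∈ S then coef (sgf (g i)) {j} else 0 := by
    simp only [hφ]
    split_ifs with hi
    · rw [coef_singleton]
    · have : (fun z : κ i → Bool => (1 : ℝ) * sg (z j)) = chi {j} := by
        ext z; simp [chi]
      rw [this, ev_chi]; simp
  have h4 : ∀ i' ∈ Finset.univ.erase i, ev (φ i') = if i' ∈ S then ev (sgf (g i')) else 1 := by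
    intro i' hi'
    have hne : i' ≠ i := (Finset.mem_erase.mp hi').1
    simp only [hφ, hne, dif_neg, not_false_eq_true, mul_one]
    split_ifs
    · rfl
    · exact ev_const 1
  rw [Finset.prod_congr rfl h4, h3]
  split_ifs with hi
  · have h5 : ∏ i' ∈ Finset.univ.erase i, (if i' ∈ S then ev (sgf (g i')) else 1)
        = ∏ k ∈ S.erase i, ev (sgf (g k)) := by
      rw [← Finset.prod_filter]
      congr 1; ext k; simp [and_comm]
    rw [h5]; ring
  · simp

end Comp

/-- achievable triples: mean, degree bound, singleton sum -/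
def Ach (μ : ℝ) (D : ℕ) (s : ℝ) : Prop :=
  ∃ (n : ℕ) (g : (Fin n → Bool) → Bool), Deg (sgf g) D ∧ ev (sgf g) = μ ∧ lin (sgf g) = s

section Reindex

variable {ι κ : Type} [Fintype ι] [DecidableEq ι] [Fintype κ] [DecidableEq κ]

lemma ev_reindex (e : ι ≃ κ) (F : (κ → Bool) → ℝ) :
    ev (fun x : ι → Bool => F (fun k => x (e.symm k))) = ev F := by
  unfold ev
  rw [Fintype.card_congr e]
  congr 1
  exact Fintype.sum_equiv (Equiv.arrowCongr e (Equiv.refl Bool)) _ _ fun x => rfl

lemma lin_reindex (e : ι ≃ κ) (F : (κ → Bool) → ℝ) :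
    lin (fun x : ι → Bool => F (fun k => x (e.symm k))) = lin F := by
  unfold lin
  refine Fintype.sum_equiv e _ _ fun i => ?_
  rw [coef_singleton, coef_singleton, ← ev_reindex e]
  simp

end Reindex

lemma ach_of_fintype {κ : Type} [Fintype κ] [DecidableEq κ] (g : (κ → Bool) → Bool) {μ : ℝ} {D : ℕ}
    {s : ℝ} (hD : Deg (sgf g) D) (hμ : ev (sgf g) = μ) (hs : lin (sgf g) = s) : Ach μ D s := by
  let e : Fin (Fintype.card κ) ≃ κ := (Fintype.equivFin κ).symm
  refine ⟨Fintype.card κ, fun x => g (fun k => x (e.symm k)), ?_, ?_, ?_⟩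
  · exact hD.comap e.symm.toEmbedding
  · rw [← hμ]; exact ev_reindex e (sgf g)
  · rw [← hs]; exact lin_reindex e (sgf g)

lemma Ach.mono {μ : ℝ} {D E : ℕ} {s : ℝ} (h : Ach μ D s) (hDE : D ≤ E) : Ach μ E s := by
  obtain ⟨n, g, h1, h2, h3⟩ := h
  exact ⟨n, g, h1.mono hDE, h2, h3⟩

/-- The general read-once composition rule. -/
theorem ach_comp {ι : Type} [Fintype ι] [DecidableEq ι] (f : (ι → Bool) → Bool)
    (μ : ι → ℝ) (D : ι → ℕ) (s : ι → ℝ) (D' : ℕ)
    (hg : ∀ i, Ach (μ i) (D i) (s i))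
    (hD : ∀ S : Finset ι, coef (sgf f) S ≠ 0 → ∑ i ∈ S, D i ≤ D') :
    Ach (mF f μ) D' (∑ i, dF f μ i * s i) := by
  choose n g h1 h2 h3 using hg
  have hμ : (fun i => ev (sgf (g i))) = μ := funext h2
  refine ach_of_fintype (comp f g) (deg_comp f g D D' h1 hD) ?_ ?_
  · rw [ev_comp, hμ]
  · rw [lin_comp, hμ]
    exact Finset.sum_congr rfl fun i _ => by rw [h3]

/-- dictator -/
lemma ach_one : Ach 0 1 1 := by
  refine ⟨1, fun x => x 0, ?_, ?_, ?_⟩
  · have : sgf (fun x : Fin 1 → Bool => x 0) = chi {0} := by ext x; simp [sgf, chi]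
    rw [this]; exact deg_chi (by simp)
  · have : sgf (fun x : Fin 1 → Bool => x 0) = chi {0} := by ext x; simp [sgf, chi]
    rw [this, ev_chi]; simp
  · have : sgf (fun x : Fin 1 → Bool => x 0) = chi {0} := by ext x; simp [sgf, chi]
    rw [this]
    unfold lin coef
    simp only [Finset.univ_unique, Finset.sum_singleton, chi_mul_chi]
    have h : symmDiff ({0} : Finset (Fin 1)) {default} = ∅ := by simp
    have h2 : (fun x : Fin 1 → Bool => chi (symmDiff ({0} : Finset (Fin 1)) {default}) x) = chi ∅ := by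
      rw [h]
    rw [h2, ev_chi]; simp

/-- output negation -/
lemma Ach.neg {μ : ℝ} {D : ℕ} {s : ℝ} (h : Ach μ D s) : Ach (-μ) D (-s) := by
  obtain ⟨n, g, h1, h2, h3⟩ := h
  have h0 : sgf (fun x => !(g x)) = fun x => (-1) * sgf g x := by
    ext x; simp [sgf, sg_not]
  refine ⟨n, fun x => !(g x), ?_, ?_, ?_⟩
  · rw [h0]; exact Deg.smul _ h1
  · rw [h0, ev_smul, h2]; ring
  · rw [h0, ← h3]
    unfold lin
    rw [← Finset.sum_neg_distrib]
    refine Finset.sum_congr rfl fun i _ => ?_
    rw [coef_singleton, coef_singleton]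
    have : (fun x : Fin n → Bool => -1 * sgf g x * sg (x i)) = fun x => (-1) * (sgf g x * sg (x i)) := by
      ext x; ring
    rw [this, ev_smul]; ring

/-- input negation -/
lemma Ach.flip {μ : ℝ} {D : ℕ} {s : ℝ} (h : Ach μ D s) : Ach μ D (-s) := by
  obtain ⟨n, g, h1, h2, h3⟩ := h
  have hev : ∀ F : (Fin n → Bool) → ℝ, ev (fun x => F (fun i => !(x i))) = ev F := by
    intro F
    unfold ev
    congr 1
    exact Fintype.sum_equiv (Equiv.arrowCongr (Equiv.refl _) Equiv.boolNot) _ _ fun x => rfl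
  have hcoef : ∀ (F : (Fin n → Bool) → ℝ) (S : Finset (Fin n)),
      coef (fun x => F (fun i => !(x i))) S = (-1) ^ S.card * coef F S := by
    intro F S
    unfold coef
    rw [← hev (fun x => F x * chi S x), ← ev_smul]
    congr 1; ext x
    have : chi S (fun i => !(x i)) = (-1) ^ S.card * chi S x := by
      simp [chi, sg_not, Finset.prod_neg]
    rw [this]
    have h2 : ((-1 : ℝ) ^ S.card) * (-1) ^ S.card = 1 := by
      rw [← mul_pow]; norm_num
    linear_combination (-(F (fun i => !(x i)) * chi S x)) * h2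
  refine ⟨n, fun x => g (fun i => !(x i)), ?_, ?_, ?_⟩
  · refine deg_of_coef_eq_zero fun S hS => ?_
    rw [show sgf (fun x : Fin n → Bool => g (fun i => !(x i)))
      = fun x => sgf g (fun i => !(x i)) from rfl, hcoef, h1.coef_eq_zero hS, mul_zero]
  · rw [show sgf (fun x : Fin n → Bool => g (fun i => !(x i)))
      = fun x => sgf g (fun i => !(x i)) from rfl, hev, h2]
  · rw [show sgf (fun x : Fin n → Bool => g (fun i => !(x i)))
      = fun x => sgf g (fun i => !(x i)) from rfl, ← h3]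
    unfold lin
    rw [← Finset.sum_neg_distrib]
    refine Finset.sum_congr rfl fun i _ => ?_
    rw [hcoef]; simp

/-- the final step: from achievable triples with large ratio to the statement -/
theorem result_of_ach (h : ∀ C : ℝ, 0 < C → ∃ (μ : ℝ) (D : ℕ) (s : ℝ), Ach μ D s ∧ C * Real.sqrt D < s)
    (C : ℝ) (hC : 0 < C) :
    ∃ n : ℕ, ∃ f : (Fin n → Bool) → Bool, ∃ d : ℕ,
      (∃ x y, f x ≠ f y) ∧
      (∀ S : Finset (Fin n), d < S.card →
        ∑ x : Fin n → Bool, ((if f x then (1 : ℝ) else -1) * ∏ i ∈ S, (if x i then (1 : ℝ) else -1)) = 0) ∧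
      C * Real.sqrt d <
        ∑ i : Fin n, (∑ x : Fin n → Bool, ((if f x then (1 : ℝ) else -1) * (if x i then (1 : ℝ) else -1))) / 2 ^ n := by
  obtain ⟨μ, D, s, ⟨n, g, h1, h2, h3⟩, h4⟩ := h C hC
  have hs : 0 < s := lt_of_le_of_lt (mul_nonneg hC.le (Real.sqrt_nonneg _)) h4
  refine ⟨n, g, D, ?_, ?_, ?_⟩
  · by_contra hcon
    push Not at hcon
    have hc : ∀ x, g x = g (fun _ => true) := fun x => hcon x _
    have : lin (sgf g) = 0 := by
      unfold lin
      refine Finset.sum_eq_zero fun i _ => ?_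
      rw [coef_singleton]
      have h5 : (fun x : Fin n → Bool => sgf g x * sg (x i))
          = fun x => sg (g (fun _ => true)) * chi {i} x := by
        ext x; simp [sgf, chi, hc x]
      rw [h5, ev_smul, ev_chi]; simp
    rw [h3] at this; exact absurd this hs.ne'
  · intro S hS
    have := h1.coef_eq_zero hS
    unfold coef ev at this
    rw [div_eq_zero_iff] at this
    rcases this with h5 | h5
    · simpa [sgf, chi, sg] using h5
    · exact absurd h5 (by positivity)
  · rw [← h3] at h4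
    refine lt_of_lt_of_eq h4 ?_
    unfold lin
    refine Finset.sum_congr rfl fun i _ => ?_
    rw [coef_singleton]
    unfold ev
    simp [sgf, sg]

/-- mean-zero inner functions: composition with a fixed outer function -/
lemma mF_zero {ι : Type} [Fintype ι] [DecidableEq ι] (f : (ι → Bool) → Bool) :
    mF f (fun _ => 0) = ev (sgf f) := by
  unfold mF
  rw [Finset.sum_eq_single ∅]
  · simp [coef_empty]
  · intro S _ hS
    obtain ⟨i, hi⟩ := Finset.nonempty_iff_ne_empty.mpr hS
    rw [Finset.prod_eq_zero hi rfl, mul_zero]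
  · simp

lemma dF_zero {ι : Type} [Fintype ι] [DecidableEq ι] (f : (ι → Bool) → Bool) (i : ι) :
    dF f (fun _ => 0) i = coef (sgf f) {i} := by
  unfold dF
  rw [Finset.sum_eq_single {i}]
  · simp
  · intro S _ hS
    split_ifs with hi
    · have : (S.erase i).Nonempty := by
        rw [Finset.nonempty_iff_ne_empty]
        intro h
        apply hS
        rw [← Finset.insert_erase hi, h]; rfl
      obtain ⟨k, hk⟩ := this
      rw [Finset.prod_eq_zero hk rfl, mul_zero]
    · rfl
  · simp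

lemma deg_sum_le {ι : Type} [Fintype ι] [DecidableEq ι] {F : (ι → Bool) → ℝ} {d : ℕ}
    (h : Deg F d) (D : ℕ) (S : Finset ι) (hS : coef F S ≠ 0) : ∑ _i ∈ S, D ≤ d * D := by
  rw [Finset.sum_const, smul_eq_mul]
  refine Nat.mul_le_mul_right _ ?_
  by_contra hlt
  exact hS (h.coef_eq_zero (not_le.mp hlt))

/-- balanced inner functions, one outer function -/
theorem ach_outer {f : ℝ} {d : ℕ} {m : ℝ} (hf : Ach m d f) {D : ℕ} {s : ℝ} (hg : Ach 0 D s) :
    Ach m (d * D) (f * s) := by
  obtain ⟨n, g, h1, h2, h3⟩ := hf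
  have := ach_comp g (fun _ => 0) (fun _ => D) (fun _ => s) (d * D) (fun _ => hg)
    (fun S hS => deg_sum_le h1 D S hS)
  rw [mF_zero, h2] at this
  simp_rw [dF_zero] at this
  rw [← Finset.sum_mul] at this
  have h4 : ∑ i, coef (sgf g) {i} = f := h3
  rwa [h4] at this

/-- Seed theorem, balanced version. -/
theorem result_of_balanced_seed {d : ℕ} {s : ℝ} (hs : Ach 0 d s) (hd : (d : ℝ) < s ^ 2) (h0 : 0 < s)
    (C : ℝ) : ∃ (μ : ℝ) (D : ℕ) (t : ℝ), Ach μ D t ∧ C * Real.sqrt D < t := by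
  have hpow : ∀ k : ℕ, Ach 0 (d ^ k) (s ^ k) := by
    intro k
    induction k with
    | zero => simpa using ach_one
    | succ k ih => rw [pow_succ', pow_succ']; exact ach_outer hs ih
  have hd1 : Real.sqrt d < s := by
    rw [Real.sqrt_lt' h0]; exact hd
  rcases Nat.eq_zero_or_pos d with h | h
  · subst h
    refine ⟨0, 0 ^ 1, s ^ 1, hpow 1, ?_⟩
    simpa using h0
  · have hdpos : 0 < Real.sqrt d := Real.sqrt_pos.mpr (by exact_mod_cast h)
    have hr : 1 < s / Real.sqrt d := (one_lt_div hdpos).mpr hd1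
    obtain ⟨k, hk⟩ := pow_unbounded_of_one_lt C hr
    refine ⟨0, d ^ k, s ^ k, hpow k, ?_⟩
    have h5 : Real.sqrt ((d ^ k : ℕ) : ℝ) = Real.sqrt d ^ k := by
      push_cast
      rw [Real.sqrt_eq_iff_mul_self_eq (by positivity) (by positivity), ← mul_pow,
        Real.mul_self_sqrt (by positivity)]
    rw [h5]
    rw [div_pow] at hk
    exact (lt_div_iff₀ (pow_pos hdpos k)).mp hk

end Crest.Agent.R063
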