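import Mathlib

/-!
# R063: Fourier analysis on finite Boolean cubes (basic lemmas)

`Deg F d` : the real function `F` on the cube `ι → Bool` is a linear combination of characters of size at most `d`.
-/

set_option autoImplicit false
set_option linter.unusedSectionVars false

open Finset

namespace Crest.Agent.R063

/-- sign of a Boolean -/
def sg (b : Bool) : ℝ := if b then 1 else -1

lemma sg_mul_self (b : Bool) : sg b * sg b = 1 := by cases b <;> simp [sg]

@[simp] lemma sg_true : sg true = 1 := rfl
@[simp] lemma sg_false : sg false = -1 := rfl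

lemma sg_not (b : Bool) : sg (!b) = - sg b := by cases b <;> simp [sg]

section Basic

variable {ι : Type} [Fintype ι] [DecidableEq ι]

/-- character of the cube -/
def chi (S : Finset ι) (x : ι → Bool) : ℝ := ∏ i ∈ S, sg (x i)

/-- expectation over the uniform cube -/
noncomputable def ev (F : (ι → Bool) → ℝ) : ℝ := (∑ x, F x) / 2 ^ Fintype.card ι

@[simp] lemma chi_empty (x : ι → Bool) : chi (∅ : Finset ι) x = 1 := by simp [chi]

lemma chi_eq_prod_univ (S : Finset ι) (x : ι → Bool) :
    chi S x = ∏ i, (if i ∈ S then sg (x i) else 1) := by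
  rw [chi, ← Finset.prod_filter]; congr 1; ext i; simp

lemma chi_mul_chi (S T : Finset ι) (x : ι → Bool) :
    chi S x * chi T x = chi (symmDiff S T) x := by
  rw [chi_eq_prod_univ, chi_eq_prod_univ, chi_eq_prod_univ, ← Finset.prod_mul_distrib]
  refine Finset.prod_congr rfl fun i _ => ?_
  by_cases h1 : i ∈ S <;> by_cases h2 : i ∈ T <;>
    simp [h1, h2, Finset.mem_symmDiff, sg_mul_self]

lemma sum_cube_prod (φ : ι → Bool → ℝ) :
    ∑ x : ι → Bool, ∏ i, φ i (x i) = ∏ i, (φ i true + φ i false) := by
  have h := Finset.prod_univ_sum (fun _ : ι => (Finset.univ : Finset Bool)) φ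
  simp only [Fintype.piFinset_univ] at h
  rw [← h]
  refine Finset.prod_congr rfl fun i _ => ?_
  simp

lemma ev_chi (S : Finset ι) : ev (chi S) = if S = ∅ then 1 else 0 := by
  unfold ev
  have h : ∑ x : ι → Bool, chi S x
      = ∏ i, ((if i ∈ S then sg true else 1) + (if i ∈ S then sg false else 1)) := by
    rw [← sum_cube_prod (fun (i : ι) (b : Bool) => if i ∈ S then sg b else 1)]
    exact Finset.sum_congr rfl fun x _ => chi_eq_prod_univ S x
  rw [h]
  split_ifs with hS
  · subst hS
    simp only [Finset.notMem_empty, if_false]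
    rw [Finset.prod_const, Finset.card_univ]
    norm_num
  · obtain ⟨i, hi⟩ := Finset.nonempty_iff_ne_empty.mpr hS
    have : ∏ i, ((if i ∈ S then sg true else 1) + (if i ∈ S then sg false else 1)) = 0 := by
      apply Finset.prod_eq_zero (Finset.mem_univ i)
      simp [hi]
    rw [this]; simp

lemma ev_add (F G : (ι → Bool) → ℝ) : ev (fun x => F x + G x) = ev F + ev G := by
  unfold ev; rw [Finset.sum_add_distrib, add_div]

lemma ev_smul (c : ℝ) (F : (ι → Bool) → ℝ) : ev (fun x => c * F x) = c * ev F := by
  unfold ev; rw [← Finset.mul_sum, mul_div_assoc]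

lemma ev_sum {α : Type*} (s : Finset α) (F : α → (ι → Bool) → ℝ) :
    ev (fun x => ∑ a ∈ s, F a x) = ∑ a ∈ s, ev (F a) := by
  unfold ev; rw [Finset.sum_comm, Finset.sum_div]

lemma ev_const (c : ℝ) : ev (fun _ : ι → Bool => c) = c := by
  classical
  unfold ev
  rw [Finset.sum_const, Finset.card_univ, Fintype.card_pi]
  simp

/-- Fourier coefficient -/
noncomputable def coef (F : (ι → Bool) → ℝ) (S : Finset ι) : ℝ := ev (fun x => F x * chi S x)

/-- Sum of the singleton coefficients -/
noncomputable def lin (F : (ι → Bool) → ℝ) : ℝ := ∑ i, coef F {i}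

lemma coef_empty (F : (ι → Bool) → ℝ) : coef F ∅ = ev F := by simp [coef]

lemma coef_singleton (F : (ι → Bool) → ℝ) (i : ι) : coef F {i} = ev (fun x => F x * sg (x i)) := by
  simp [coef, chi]

/-- degree at most `d` -/
def Deg (F : (ι → Bool) → ℝ) (d : ℕ) : Prop :=
  F ∈ Submodule.span ℝ {G : (ι → Bool) → ℝ | ∃ S : Finset ι, S.card ≤ d ∧ G = chi S}

lemma deg_chi {S : Finset ι} {d : ℕ} (h : S.card ≤ d) : Deg (chi S) d :=
  Submodule.subset_span ⟨S, h, rfl⟩

lemma Deg.mono {F : (ι → Bool) → ℝ} {d e : ℕ} (h : Deg F d) (hde : d ≤ e) : Deg F e := by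
  refine Submodule.span_mono ?_ h
  rintro G ⟨S, hS, rfl⟩
  exact ⟨S, hS.trans hde, rfl⟩

lemma Deg.add {F G : (ι → Bool) → ℝ} {d : ℕ} (h : Deg F d) (h' : Deg G d) :
    Deg (fun x => F x + G x) d := Submodule.add_mem _ h h'

lemma Deg.smul {F : (ι → Bool) → ℝ} {d : ℕ} (c : ℝ) (h : Deg F d) :
    Deg (fun x => c * F x) d := Submodule.smul_mem _ c h

lemma deg_const (c : ℝ) (d : ℕ) : Deg (fun _ : ι → Bool => c) d := by
  have h : Deg (fun x : ι → Bool => c * chi (∅ : Finset ι) x) d := Deg.smul c (deg_chi (by simp))
  simpa [chi] using h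

lemma deg_zero (d : ℕ) : Deg (0 : (ι → Bool) → ℝ) d := Submodule.zero_mem _

lemma Deg.sum {α : Type*} (s : Finset α) {F : α → (ι → Bool) → ℝ} {d : ℕ}
    (h : ∀ a ∈ s, Deg (F a) d) : Deg (fun x => ∑ a ∈ s, F a x) d := by
  have : (fun x => ∑ a ∈ s, F a x) = ∑ a ∈ s, F a := by ext x; simp
  rw [this]
  exact Submodule.sum_mem _ h

lemma card_symmDiff_le' (S T : Finset ι) : (symmDiff S T).card ≤ S.card + T.card := by
  have h : symmDiff S T ⊆ S ∪ T := by
    intro i hi
    rw [Finset.mem_symmDiff] at hi
    rw [Finset.mem_union]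
    tauto
  exact (Finset.card_le_card h).trans (Finset.card_union_le _ _)

lemma Deg.mul {F G : (ι → Bool) → ℝ} {d e : ℕ} (h : Deg F d) (h' : Deg G e) :
    Deg (fun x => F x * G x) (d + e) := by
  unfold Deg at h
  induction h using Submodule.span_induction with
  | mem F hF =>
    obtain ⟨S, hS, rfl⟩ := hF
    unfold Deg at h'
    induction h' using Submodule.span_induction with
    | mem G hG =>
      obtain ⟨T, hT, rfl⟩ := hG
      have : (fun x => chi S x * chi T x) = chi (symmDiff S T) := by
        ext x; exact chi_mul_chi S T x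
      rw [this]
      exact deg_chi ((card_symmDiff_le' S T).trans (by omega))
    | zero =>
      have h0 : (fun x => chi S x * (0 : (ι → Bool) → ℝ) x) = 0 := by ext x; simp
      rw [h0]; exact deg_zero _
    | add G G' _ _ ih ih' =>
      have := ih.add ih'
      simpa [mul_add] using this
    | smul c G _ ih =>
      have := Deg.smul c ih
      simpa [mul_left_comm] using this
  | zero =>
    have h0 : (fun x => (0 : (ι → Bool) → ℝ) x * G x) = 0 := by ext x; simp
    rw [h0]; exact deg_zero _
  | add F F' _ _ ih ih' =>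
    have := ih.add ih'
    simpa [add_mul] using this
  | smul c F _ ih =>
    have := Deg.smul c ih
    simpa [mul_assoc] using this

lemma Deg.prod {α : Type*} (s : Finset α) {F : α → (ι → Bool) → ℝ} {d : α → ℕ}
    (h : ∀ a ∈ s, Deg (F a) (d a)) : Deg (fun x => ∏ a ∈ s, F a x) (∑ a ∈ s, d a) := by
  classical
  induction s using Finset.induction_on with
  | empty => simpa using deg_const (ι := ι) 1 0
  | insert a s ha ih =>
    simp only [Finset.prod_insert ha, Finset.sum_insert ha]
    exact (h a (Finset.mem_insert_self a s)).mul (ih fun b hb => h b (Finset.mem_insert_of_mem hb))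

lemma Deg.coef_eq_zero {F : (ι → Bool) → ℝ} {d : ℕ} (h : Deg F d) {S : Finset ι}
    (hS : d < S.card) : coef F S = 0 := by
  unfold Deg at h
  induction h using Submodule.span_induction with
  | mem F hF =>
    obtain ⟨T, hT, rfl⟩ := hF
    unfold coef
    have : (fun x => chi T x * chi S x) = chi (symmDiff T S) := by
      ext x; exact chi_mul_chi T S x
    rw [this, ev_chi, if_neg]
    intro h
    have : T = S := symmDiff_eq_bot.mp h
    subst this
    omega
  | zero => simp [coef, ev]
  | add F G _ _ ih ih' =>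
    unfold coef at *
    have : (fun x => (F + G) x * chi S x) = fun x => F x * chi S x + G x * chi S x := by
      ext x; simp [add_mul]
    rw [this, ev_add, ih, ih', add_zero]
  | smul c F _ ih =>
    unfold coef at *
    have : (fun x => (c • F) x * chi S x) = fun x => c * (F x * chi S x) := by
      ext x; simp [mul_assoc]
    rw [this, ev_smul, ih, mul_zero]

/-- Fourier inversion -/
lemma fourier_inversion (F : (ι → Bool) → ℝ) (x : ι → Bool) :
    F x = ∑ S : Finset ι, coef F S * chi S x := by
  have key : ∀ y : ι → Bool, ∑ S : Finset ι, chi S y * chi S x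
      = if y = x then (2 : ℝ) ^ Fintype.card ι else 0 := by
    intro y
    have h1 : ∑ S : Finset ι, chi S y * chi S x = ∏ i, (1 + sg (y i) * sg (x i)) := by
      rw [Finset.prod_one_add]
      simp only [Finset.powerset_univ]
      refine Finset.sum_congr rfl fun S _ => ?_
      simp [chi, Finset.prod_mul_distrib]
    rw [h1]
    split_ifs with h
    · subst h
      simp only [sg_mul_self]
      rw [Finset.prod_const, Finset.card_univ]; norm_num
    · obtain ⟨i, hi⟩ := Function.ne_iff.mp h
      apply Finset.prod_eq_zero (Finset.mem_univ i)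
      cases hy : y i <;> cases hx : x i <;> simp_all
  unfold coef ev
  have h2 : ∑ S : Finset ι, (∑ y, F y * chi S y) / 2 ^ Fintype.card ι * chi S x
      = (∑ y, F y * ∑ S : Finset ι, chi S y * chi S x) / 2 ^ Fintype.card ι := by
    simp_rw [Finset.mul_sum]
    rw [Finset.sum_comm, Finset.sum_div]
    refine Finset.sum_congr rfl fun S _ => ?_
    rw [Finset.sum_div, Finset.sum_div, Finset.sum_mul]
    refine Finset.sum_congr rfl fun y _ => ?_
    ring
  rw [h2]
  simp_rw [key]
  simp

lemma deg_of_coef_eq_zero {F : (ι → Bool) → ℝ} {d : ℕ}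
    (h : ∀ S : Finset ι, d < S.card → coef F S = 0) : Deg F d := by
  have hF : F = fun x => ∑ S : Finset ι, coef F S * chi S x := by
    ext x; exact fourier_inversion F x
  rw [hF]
  refine Deg.sum _ fun S _ => ?_
  by_cases hS : d < S.card
  · simp only [h S hS, zero_mul]; exact deg_const 0 d
  · exact (deg_chi (not_lt.mp hS)).smul _

end Basic

section Comap

variable {ι κ : Type} [Fintype ι] [DecidableEq ι] [Fintype κ] [DecidableEq κ]

lemma Deg.comap {F : (κ → Bool) → ℝ} {d : ℕ} (h : Deg F d) (j : κ ↪ ι) :
    Deg (fun x : ι → Bool => F (fun k => x (j k))) d := by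
  unfold Deg at h
  induction h using Submodule.span_induction with
  | mem F hF =>
    obtain ⟨S, hS, rfl⟩ := hF
    have : (fun x : ι → Bool => chi S (fun k => x (j k))) = chi (S.map j) := by
      ext x; simp [chi]
    rw [this]
    exact deg_chi (by simpa using hS)
  | zero => exact deg_zero d
  | add F G _ _ ih ih' => exact ih.add ih'
  | smul c F _ ih => exact Deg.smul c ih

end Comap

end Crest.Agent.R063
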