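import Crest.Agent.R063.KDefs

/-!
# R063: functions of block vectors; MODULE 1 (sums of iid copies of a gadget)
-/

set_option autoImplicit false
set_option linter.unusedSectionVars false

open Finset

noncomputable section

namespace Crest.Agent.R063

variable {ι : Type} [Fintype ι] [DecidableEq ι] {α : Type} [Fintype α] [DecidableEq α]

/-- finite set of values of `Z` -/
def vals (Z : (ι → Bool) → ℝ) : Finset ℝ := Finset.univ.image Z

lemma mem_vals (Z : (ι → Bool) → ℝ) (y : ι → Bool) : Z y ∈ vals Z :=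
  Finset.mem_image_of_mem _ (Finset.mem_univ y)

/-- point indicator -/
def pt (v : ℝ) (t : ℝ) : ℝ := if t = v then 1 else 0

lemma expand_on (Z : (ι → Bool) → ℝ) (s : Finset α) (F : (α → ℝ) → ℝ)
    (hF : ∀ z z', (∀ b ∈ s, z b = z' b) → F z = F z') (x : (Σ _ : α, ι) → Bool) :
    F (zv Z x) = ∑ v ∈ Fintype.piFinset (fun b => if b ∈ s then vals Z else {0}),
      F v * ∏ b ∈ s, pt (v b) (Z (fun k => x ⟨b, k⟩)) := by
  set v0 : α → ℝ := fun b => if b ∈ s then zv Z x b else 0 with hv0
  have hmem : v0 ∈ Fintype.piFinset (fun b => if b ∈ s then vals Z else {0}) := by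
    rw [Fintype.mem_piFinset]
    intro b
    simp only [hv0]
    by_cases hb : b ∈ s
    · simp only [hb, if_true]; exact mem_vals Z _
    · simp [hb]
  rw [Finset.sum_eq_single_of_mem v0 hmem]
  · have h1 : ∏ b ∈ s, pt (v0 b) (Z (fun k => x ⟨b, k⟩)) = 1 := by
      refine Finset.prod_eq_one fun b hb => ?_
      simp [pt, hv0, hb, zv]
    rw [h1, mul_one]
    exact hF _ _ fun b hb => by simp [hv0, hb]
  · intro v hv hne
    obtain ⟨b, hb⟩ := Function.ne_iff.mp hne
    rw [Fintype.mem_piFinset] at hv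
    have hbs : b ∈ s := by
      by_contra hbs
      have h1 := hv b
      simp only [hbs, if_false, Finset.mem_singleton] at h1
      apply hb; simp [hv0, hbs, h1]
    have : ∏ b ∈ s, pt (v b) (Z (fun k => x ⟨b, k⟩)) = 0 := by
      refine Finset.prod_eq_zero hbs ?_
      unfold pt
      rw [if_neg]
      intro h
      apply hb
      simp [hv0, hbs, zv, h]
    rw [this, mul_zero]

/-- a function of the block values depending only on the blocks in `s` has degree `≤ |s| C` -/
lemma deg_of_dep {Z : (ι → Bool) → ℝ} {C : ℕ} (hZ : ∀ g : ℝ → ℝ, Deg (fun x => g (Z x)) C)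
    (s : Finset α) (F : (α → ℝ) → ℝ)
    (hF : ∀ z z', (∀ b ∈ s, z b = z' b) → F z = F z') :
    Deg (fun x : (Σ _ : α, ι) → Bool => F (zv Z x)) (s.card * C) := by
  have h : (fun x : (Σ _ : α, ι) → Bool => F (zv Z x)) = fun x =>
      ∑ v ∈ Fintype.piFinset (fun b => if b ∈ s then vals Z else {0}),
      F v * ∏ b ∈ s, pt (v b) (Z (fun k => x ⟨b, k⟩)) := by
    ext x; exact expand_on Z s F hF x
  rw [h]
  refine Deg.sum _ fun v _ => Deg.smul _ ?_
  have := Deg.prod (F := fun b (x : (Σ _ : α, ι) → Bool) => pt (v b) (Z (fun k => x ⟨b, k⟩))) s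
    (d := fun _ => C) fun b _ => (hZ (pt (v b))).comap
      (⟨fun k => ⟨b, k⟩, fun k k' h => by simpa using h⟩ : ι ↪ (Σ _ : α, ι))
  simpa using this

lemma ev_congr {F G : (ι → Bool) → ℝ} (h : ∀ x, F x = G x) : ev F = ev G := by
  rw [funext h]

/-- independence of blocks -/
lemma ev_block_prod (φ : α → (ι → Bool) → ℝ) :
    ev (fun x : (Σ _ : α, ι) → Bool => ∏ a, φ a (fun k => x ⟨a, k⟩)) = ∏ a, ev (φ a) :=
  ev_prod (κ := fun _ : α => ι) φ

lemma SS_sigma (x : (Σ _ : α, ι) → Bool) : SS x = ∑ a, SS (fun k => x ⟨a, k⟩) := by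
  unfold SS; rw [Fintype.sum_sigma]

lemma ev_one_block (Z₁ Z₂ : (ι → Bool) → ℝ) (Q : α → (ι → Bool) → ℝ) (a : α)
    (h : ev (fun y => Z₁ y * Q a y) = ev (fun y => Z₂ y * Q a y)) :
    ev (fun x : (Σ _ : α, ι) → Bool => Z₁ (fun k => x ⟨a, k⟩) * ∏ b, Q b (fun k => x ⟨b, k⟩))
      = ev (fun x : (Σ _ : α, ι) → Bool => Z₂ (fun k => x ⟨a, k⟩) * ∏ b, Q b (fun k => x ⟨b, k⟩)) := by
  have key : ∀ W : (ι → Bool) → ℝ,
      ev (fun x : (Σ _ : α, ι) → Bool => W (fun k => x ⟨a, k⟩) * ∏ b, Q b (fun k => x ⟨b, k⟩))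
      = ev (fun y => W y * Q a y) * ∏ b ∈ Finset.univ.erase a, ev (Q b) := by
    intro W
    have h1 : (fun x : (Σ _ : α, ι) → Bool => W (fun k => x ⟨a, k⟩) * ∏ b, Q b (fun k => x ⟨b, k⟩))
        = fun x => ∏ b, (fun (b : α) (y : ι → Bool) => (if b = a then W y else 1) * Q b y) b
          (fun k => x ⟨b, k⟩) := by
      ext x
      simp only
      rw [Finset.prod_mul_distrib]
      congr 1
      rw [Finset.prod_eq_single a] <;> simp +contextual
    rw [h1, ev_block_prod (fun (b : α) (y : ι → Bool) => (if b = a then W y else 1) * Q b y)]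
    rw [← Finset.mul_prod_erase Finset.univ _ (Finset.mem_univ a)]
    simp only [if_true]
    congr 1
    refine Finset.prod_congr rfl fun b hb => ?_
    have : b ≠ a := (Finset.mem_erase.mp hb).1
    simp [this]
  rw [key, key, h]

/-- the key martingale property for functions of the block values -/
lemma mart_block {Z : (ι → Bool) → ℝ}
    (hZ : ∀ g : ℝ → ℝ, ev (fun x => SS x * g (Z x)) = ev (fun x => Z x * g (Z x)))
    (F : (α → ℝ) → ℝ) :
    ev (fun x : (Σ _ : α, ι) → Bool => SS x * F (zv Z x))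
      = ev (fun x => zsum Z x * F (zv Z x)) := by
  have hx : ∀ x : (Σ _ : α, ι) → Bool, F (zv Z x) =
      ∑ v ∈ Fintype.piFinset (fun b => if b ∈ (Finset.univ : Finset α) then vals Z else {0}),
      F v * ∏ b, pt (v b) (Z (fun k => x ⟨b, k⟩)) := by
    intro x
    exact expand_on Z Finset.univ F (fun z z' h => by rw [funext fun b => h b (Finset.mem_univ b)]) x
  have h1 : ∀ x : (Σ _ : α, ι) → Bool, SS x * F (zv Z x) =
      ∑ v ∈ Fintype.piFinset (fun b => if b ∈ (Finset.univ : Finset α) then vals Z else {0}),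
      ∑ a, F v * (SS (fun k => x ⟨a, k⟩) * ∏ b, pt (v b) (Z (fun k => x ⟨b, k⟩))) := by
    intro x
    rw [hx x, SS_sigma, Finset.mul_sum]
    refine Finset.sum_congr rfl fun v _ => ?_
    rw [Finset.sum_mul]
    refine Finset.sum_congr rfl fun a _ => ?_
    ring
  have h2 : ∀ x : (Σ _ : α, ι) → Bool, zsum Z x * F (zv Z x) =
      ∑ v ∈ Fintype.piFinset (fun b => if b ∈ (Finset.univ : Finset α) then vals Z else {0}),
      ∑ a, F v * (Z (fun k => x ⟨a, k⟩) * ∏ b, pt (v b) (Z (fun k => x ⟨b, k⟩))) := by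
    intro x
    rw [hx x, zsum, Finset.mul_sum]
    refine Finset.sum_congr rfl fun v _ => ?_
    rw [Finset.sum_mul]
    refine Finset.sum_congr rfl fun a _ => ?_
    simp only [zv]; ring
  rw [ev_congr h1, ev_congr h2, ev_sum, ev_sum]
  refine Finset.sum_congr rfl fun v _ => ?_
  rw [ev_sum, ev_sum]
  refine Finset.sum_congr rfl fun a _ => ?_
  rw [ev_smul, ev_smul]
  congr 1
  exact ev_one_block SS Z (fun b y => pt (v b) (Z y)) a (hZ (pt (v a)))

lemma ev_SS : ev (SS : (ι → Bool) → ℝ) = 0 := by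
  unfold SS
  rw [ev_sum]
  refine Finset.sum_eq_zero fun i _ => ?_
  have : (fun x : ι → Bool => sg (x i)) = chi {i} := by ext x; simp [chi]
  rw [this, ev_chi]; simp

lemma Gad.ev_eq_zero {Z : (ι → Bool) → ℝ} {c : ℕ} (h : Gad Z c) : ev Z = 0 := by
  have := h.mart (fun _ => 1)
  simp only [mul_one] at this
  rw [← this]; exact ev_SS

/-- second moment of a sum of independent mean zero copies -/
lemma ev_zsum_sq {Z : (ι → Bool) → ℝ} (h0 : ev Z = 0) :
    ev (fun x : (Σ _ : α, ι) → Bool => zsum Z x ^ 2) = Fintype.card α * ev (fun y => Z y ^ 2) := by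
  have h1 : ∀ x : (Σ _ : α, ι) → Bool, zsum Z x ^ 2
      = ∑ a, ∑ b, Z (fun k => x ⟨a, k⟩) * Z (fun k => x ⟨b, k⟩) := by
    intro x; rw [sq, zsum, Finset.sum_mul_sum]; rfl
  rw [ev_congr h1, ev_sum]
  simp_rw [ev_sum]
  have h2 : ∀ a b : α, ev (fun x : (Σ _ : α, ι) → Bool => Z (fun k => x ⟨a, k⟩) * Z (fun k => x ⟨b, k⟩))
      = if a = b then ev (fun y => Z y ^ 2) else 0 := by
    intro a b
    by_cases hab : a = b
    · subst hab
      rw [if_pos rfl]
      have h3 : (fun x : (Σ _ : α, ι) → Bool => Z (fun k => x ⟨a, k⟩) * Z (fun k => x ⟨a, k⟩))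
          = fun x => ∏ c, (fun (c : α) (y : ι → Bool) => if c = a then Z y ^ 2 else 1) c
            (fun k => x ⟨c, k⟩) := by
        ext x
        rw [Finset.prod_eq_single a]
        · simp [sq]
        · intro c _ hc; simp [hc]
        · simp
      rw [h3, ev_block_prod (fun (c : α) (y : ι → Bool) => if c = a then Z y ^ 2 else 1),
        Finset.prod_eq_single a]
      · simp
      · intro c _ hc; simp [hc, ev_const]
      · simp
    · rw [if_neg hab]
      have h3 : (fun x : (Σ _ : α, ι) → Bool => Z (fun k => x ⟨a, k⟩) * Z (fun k => x ⟨b, k⟩))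
          = fun x => ∏ c, (fun (c : α) (y : ι → Bool) =>
            (if c = a then Z y else 1) * (if c = b then Z y else 1)) c (fun k => x ⟨c, k⟩) := by
        ext x
        simp only
        rw [Finset.prod_mul_distrib]
        congr 1
        · rw [Finset.prod_eq_single a] <;> simp +contextual
        · rw [Finset.prod_eq_single b] <;> simp +contextual
      rw [h3, ev_block_prod (fun (c : α) (y : ι → Bool) =>
            (if c = a then Z y else 1) * (if c = b then Z y else 1))]
      refine Finset.prod_eq_zero (Finset.mem_univ a) ?_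
      simp [hab, h0]
  simp_rw [h2]
  simp

/-- MODULE 1 -/
theorem blockStmt : BlockStmt := by
  intro ι _ _ α _ _ Z c hZ
  refine ⟨⟨?_, ?_⟩, ev_zsum_sq hZ.ev_eq_zero⟩
  · intro g
    exact deg_of_dep hZ.deg Finset.univ (fun z => g (∑ a, z a))
      (fun z z' h => by rw [funext fun b => h b (Finset.mem_univ b)])
  · intro g
    exact mart_block hZ.mart (fun z => g (∑ a, z a))

end Crest.Agent.R063

end
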