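import Crest.Agent.R063.Compose

/-!
# R063: gadgets (multi-valued score functions of low degree) -- definitions and module statements

See notes of row 63 (helper971, blueprint).  All modules prove one of the `...Stmt` below;
`KMain.lean` assembles.
-/

set_option autoImplicit false
set_option linter.unusedSectionVars false

open Finset

noncomputable section

namespace Crest.Agent.R063

/-- sum of the signs -/
def SS {ι : Type} [Fintype ι] (x : ι → Bool) : ℝ := ∑ i, sg (x i)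

/-- gadget: every function of `Z` has degree at most `c`, and `E[S | Z] = Z`. -/
structure Gad {ι : Type} [Fintype ι] [DecidableEq ι] (Z : (ι → Bool) → ℝ) (c : ℕ) : Prop where
  deg : ∀ g : ℝ → ℝ, Deg (fun x => g (Z x)) c
  mart : ∀ g : ℝ → ℝ, ev (fun x => SS x * g (Z x)) = ev (fun x => Z x * g (Z x))

/-- there is a gadget of positive cost with rate (second moment / cost) at least `κ` -/
def HasRate (κ : ℝ) : Prop :=
  ∃ (ι : Type) (_ : Fintype ι) (_ : DecidableEq ι) (Z : (ι → Bool) → ℝ) (c : ℕ),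
    0 < c ∧ Gad Z c ∧ κ * c ≤ ev (fun x => Z x ^ 2)

/-- the vector of block values (blocks indexed by `α`, each block is a copy of the cube over `ι`) -/
def zv {α ι : Type} (Z : (ι → Bool) → ℝ) (x : (Σ _ : α, ι) → Bool) : α → ℝ :=
  fun a => Z (fun k => x ⟨a, k⟩)

/-- sum of independent copies -/
def zsum {α ι : Type} [Fintype α] (Z : (ι → Bool) → ℝ) (x : (Σ _ : α, ι) → Bool) : ℝ :=
  ∑ a, zv Z x a

/-- MODULE 1: sums of iid copies of a gadget are gadgets. -/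
def BlockStmt : Prop :=
  ∀ (ι : Type) [Fintype ι] [DecidableEq ι] (α : Type) [Fintype α] [DecidableEq α]
    (Z : (ι → Bool) → ℝ) (c : ℕ), Gad Z c →
    Gad (fun x : (Σ _ : α, ι) → Bool => zsum Z x) (Fintype.card α * c) ∧
    ev (fun x : (Σ _ : α, ι) → Bool => zsum Z x ^ 2)
      = Fintype.card α * ev (fun y => Z y ^ 2)

/-- real indicator function of a set -/
def ind {β : Type} (A : Set β) : β → ℝ := A.indicator (fun _ => 1)

/-- an event on `α`-vectors whose indicator is a sum of functions each missing a coordinate -/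
def Junta {α : Type} [Fintype α] (A : Set (α → ℝ)) : Prop :=
  ∃ F : α → (α → ℝ) → ℝ,
    (∀ a z z', (∀ b, b ≠ a → z b = z' b) → F a z = F a z') ∧
    (∀ z, ind A z = ∑ a, F a z)

/-- MODULE 2: the event step. -/
def EventStmt : Prop :=
  ∀ (ι : Type) [Fintype ι] [DecidableEq ι] (α : Type) [Fintype α] [DecidableEq α] [Nonempty α]
    (Z : (ι → Bool) → ℝ) (C : ℕ), Gad Z C → ∀ A : Set (α → ℝ), Junta A →
    ∃ (ι' : Type) (_ : Fintype ι') (_ : DecidableEq ι') (Z' : (ι' → Bool) → ℝ),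
      Gad Z' (Fintype.card α * C) ∧
      Fintype.card α * ev (fun y => Z y ^ 2)
        + ev (fun x : (Σ _ : α, ι) → Bool =>
            ind A (zv Z x) * (ev (fun y => Z y ^ 2) - zsum Z x ^ 2))
        ≤ ev (fun x => Z' x ^ 2)

/-! ### parameters -/

def tau (n : ℕ) : ℝ := 1 / (n : ℝ)
def hh (n : ℕ) : ℝ := 1 / (n : ℝ) ^ 9
def hp (n : ℕ) : ℝ := 1 / (n : ℝ) ^ 14
def KK (n : ℕ) : ℕ := 2 * n ^ 10
def cc (n b : ℕ) : ℝ := -(n : ℝ) + ((b : ℝ) + 1 / 2) * hh n
/-- thin cells, `b < KK n` -/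
def Vc (n b : ℕ) : Set ℝ := Set.Ico (cc n b - hp n / 2) (cc n b + hp n / 2)
/-- cells of the partition of `[-n-τ, n-τ)`, `b < KK n` -/
def Ic (n b : ℕ) : Set ℝ := Set.Ico (cc n b - tau n - hh n / 2) (cc n b - tau n + hh n / 2)
/-- grid cells -/
def Gc (n : ℕ) (i : ℤ) : Set ℝ := Set.Ico ((i : ℝ) * (hh n / 2)) (((i : ℝ) + 1) * (hh n / 2))
/-- the interior -/
def Int0 (n : ℕ) : Set ℝ := Set.Ico (-(n : ℝ) - tau n) ((n : ℝ) - tau n)

/-- probability that `Y` lies in `s` -/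
def pr {ι : Type} [Fintype ι] [DecidableEq ι] (Y : (ι → Bool) → ℝ) (s : Set ℝ) : ℝ :=
  ev (fun y => ind s (Y y))

/-- the law of `Y` is close enough to the standard normal law for the parameter `n` -/
structure Nice {ι : Type} [Fintype ι] [DecidableEq ι] (n : ℕ) (C δ : ℝ) (Y : (ι → Bool) → ℝ) : Prop where
  mean : ev Y = 0
  var : ev (fun y => Y y ^ 2) = 1
  V_pos : ∀ b < KK n, δ ≤ pr Y (Vc n b)
  I_le : ∀ b < KK n, pr Y (Ic n b) ≤ 41 * (n : ℝ) ^ 5 * pr Y (Vc n b)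
  G_le : ∀ i : ℤ, |(i : ℝ) * (hh n / 2)| ≤ 2 → hh n / 100 ≤ pr Y (Gc n i)
  tail : ev (fun y => (Int0 n)ᶜ.indicator (fun t => t ^ 2) (Y y)) ≤ C / (n : ℝ) ^ 12

/-- MODULE 3: the gain. -/
def GainStmt : Prop :=
  ∀ C : ℝ, 0 < C → ∃ n : ℕ, 2 ≤ n ∧ ∀ δ : ℝ, 0 < δ → ∃ ε : ℝ, 0 < ε ∧
    ∃ (α : Type) (_ : Fintype α) (_ : DecidableEq α) (_ : Nonempty α),
    ∀ (ι : Type) [Fintype ι] [DecidableEq ι] (Y : (ι → Bool) → ℝ), Nice n C δ Y →
      ∃ A : Set (α → ℝ), Junta A ∧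
        ε ≤ ev (fun x : (Σ _ : α, ι) → Bool => ind A (zv Y x) * (1 - zsum Y x ^ 2))

/-- MODULE 4: central limit theorem + Gaussian estimates. -/
def NiceStmt : Prop :=
  ∃ C : ℝ, 0 < C ∧ ∀ n : ℕ, 2 ≤ n → ∃ δ : ℝ, 0 < δ ∧
    ∀ (ι : Type) [Fintype ι] [DecidableEq ι] (Z : (ι → Bool) → ℝ),
      ev Z = 0 → 0 < ev (fun y => Z y ^ 2) →
      ∃ m : ℕ, 0 < m ∧
        Nice n C δ (fun x : (Σ _ : Fin m, ι) → Bool =>
          zsum Z x / Real.sqrt (m * ev (fun y => Z y ^ 2)))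

end Crest.Agent.R063

end
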