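import Crest.Agent.R063.KBlock

/-!
# R063: MODULE 2 (the event step)
-/

set_option autoImplicit false
set_option linter.unusedSectionVars false

open Finset

noncomputable section

namespace Crest.Agent.R063

section SumType

variable {κ ι : Type} [Fintype κ] [DecidableEq κ] [Fintype ι] [DecidableEq ι]

/-- iterated expectation on a product of two cubes -/
lemma ev_sumType (F : (κ → Bool) → (ι → Bool) → ℝ) :
    ev (fun x : (κ ⊕ ι) → Bool => F (fun k => x (Sum.inl k)) (fun k => x (Sum.inr k)))
      = ev (fun y => ev (fun z => F y z)) := by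
  unfold ev
  rw [Fintype.card_sum, pow_add, ← Finset.sum_div, div_div, mul_comm (2 ^ Fintype.card κ : ℝ)]
  congr 1
  rw [← Fintype.sum_prod_type' (f := fun y z => F y z)]
  exact Fintype.sum_equiv (Equiv.sumArrowEquivProdArrow κ ι Bool) _ _ fun x => rfl

lemma ev_sumType_mul (F : (κ → Bool) → ℝ) (G : (ι → Bool) → ℝ) :
    ev (fun x : (κ ⊕ ι) → Bool => F (fun k => x (Sum.inl k)) * G (fun k => x (Sum.inr k)))
      = ev F * ev G := by
  rw [ev_sumType (fun y z => F y * G z)]
  simp_rw [ev_smul]
  have : (fun y => F y * ev G) = fun y => ev G * F y := by ext y; ring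
  rw [this, ev_smul]; ring

lemma SS_sumType (x : (κ ⊕ ι) → Bool) :
    SS x = SS (fun k => x (Sum.inl k)) + SS (fun k => x (Sum.inr k)) := by
  unfold SS; rw [Fintype.sum_sum_type]

end SumType

section

variable {ι : Type} [Fintype ι] [DecidableEq ι]

lemma ev_eq_zero_of_nonneg {F : (ι → Bool) → ℝ} (h0 : ∀ x, 0 ≤ F x) (h : ev F = 0) (x : ι → Bool) :
    F x = 0 := by
  unfold ev at h
  rw [div_eq_zero_iff] at h
  rcases h with h | h
  · exact (Finset.sum_eq_zero_iff_of_nonneg fun y _ => h0 y).mp h x (Finset.mem_univ x)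
  · exact absurd h (by positivity)

end

lemma ind_nonneg {β : Type} (A : Set β) (z : β) : 0 ≤ ind A z :=
  Set.indicator_nonneg (fun _ _ => zero_le_one) z

lemma ind_mul_self {β : Type} (A : Set β) (z : β) : ind A z * ind A z = ind A z := by
  unfold ind; by_cases h : z ∈ A <;> simp [h]

/-- MODULE 2 -/
theorem eventStmt : EventStmt := by
  intro ι _ _ α _ _ _ Z C hZ A hA
  classical
  obtain ⟨Fm, hFm, hAF⟩ := hA
  have hZ0 : ev Z = 0 := hZ.ev_eq_zero
  set P : ℝ := ev (fun x : (Σ _ : α, ι) → Bool => ind A (zv Z x)) with hP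
  set M : ℝ := ev (fun x : (Σ _ : α, ι) → Bool => zsum Z x * ind A (zv Z x)) with hM
  set w : ℝ := M / P with hw
  have hPw : P * w = M := by
    by_cases hP0 : P = 0
    · have h1 : ∀ x : (Σ _ : α, ι) → Bool, ind A (zv Z x) = 0 :=
        ev_eq_zero_of_nonneg (fun x => ind_nonneg A _) hP0
      have h2 : M = 0 := by
        rw [hM]
        have : (fun x : (Σ _ : α, ι) → Bool => zsum Z x * ind A (zv Z x)) = fun _ => 0 := by
          ext x; rw [h1]; ring
        rw [this, ev_const]
      rw [hP0, h2]; ring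
    · rw [hw]; field_simp
  set T : ((Σ _ : α, ι) → Bool) → ℝ := zsum Z with hT
  set I : ((Σ _ : α, ι) → Bool) → ℝ := fun x => ind A (zv Z x) with hI
  let Z' : (((Σ _ : α, ι) ⊕ ι) → Bool) → ℝ := fun x =>
    (1 - I (fun k => x (Sum.inl k))) * T (fun k => x (Sum.inl k))
      + I (fun k => x (Sum.inl k)) * (w + Z (fun k => x (Sum.inr k)))
  have hIv : ∀ y, I y = 0 ∨ I y = 1 := by
    intro y; simp only [hI, ind]
    by_cases h : zv Z y ∈ A <;> simp [h]
  -- splitting of functions of `Z'`
  have hsplit : ∀ (g : ℝ → ℝ) (x : ((Σ _ : α, ι) ⊕ ι) → Bool), g (Z' x)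
      = (1 - I (fun k => x (Sum.inl k))) * g (T (fun k => x (Sum.inl k)))
      + I (fun k => x (Sum.inl k)) * g (w + Z (fun k => x (Sum.inr k))) := by
    intro g x
    simp only [Z']
    rcases hIv (fun k => x (Sum.inl k)) with h | h <;> rw [h] <;> simp
  have hev : ∀ (F₁ F₂ : ((Σ _ : α, ι) → Bool) → ℝ) (G₁ G₂ : (ι → Bool) → ℝ),
      ev (fun x : ((Σ _ : α, ι) ⊕ ι) → Bool => F₁ (fun k => x (Sum.inl k)) * G₁ (fun k => x (Sum.inr k))
        + F₂ (fun k => x (Sum.inl k)) * G₂ (fun k => x (Sum.inr k)))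
      = ev F₁ * ev G₁ + ev F₂ * ev G₂ := by
    intro F₁ F₂ G₁ G₂
    rw [ev_add (fun x : ((Σ _ : α, ι) ⊕ ι) → Bool => F₁ (fun k => x (Sum.inl k)) * G₁ (fun k => x (Sum.inr k)))
      (fun x => F₂ (fun k => x (Sum.inl k)) * G₂ (fun k => x (Sum.inr k))),
      ev_sumType_mul, ev_sumType_mul]
  have hEI : ev I = P := rfl
  refine ⟨(Σ _ : α, ι) ⊕ ι, inferInstance, inferInstance, Z', ⟨?_, ?_⟩, ?_⟩
  · -- degree
    intro g
    have h1 : (fun x => g (Z' x)) = fun x =>
        (fun y => (1 - I y) * g (T y)) (fun k => x (Sum.inl k))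
        + I (fun k => x (Sum.inl k)) * (fun y => g (w + Z y)) (fun k => x (Sum.inr k)) := by
      ext x; exact hsplit g x
    rw [h1]
    refine Deg.add ?_ ?_
    · have h2 : Deg (fun y : (Σ _ : α, ι) → Bool => (1 - I y) * g (T y)) (Fintype.card α * C) :=
        deg_of_dep hZ.deg Finset.univ (fun z => (1 - ind A z) * g (∑ a, z a))
          (fun z z' h => by rw [funext fun b => h b (Finset.mem_univ b)])
      exact h2.comap (Function.Embedding.inl : (Σ _ : α, ι) ↪ (Σ _ : α, ι) ⊕ ι)
    · have h3 : Deg I ((Fintype.card α - 1) * C) := by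
        have h4 : I = fun y => ∑ a, Fm a (zv Z y) := by ext y; exact hAF _
        rw [h4]
        refine Deg.sum _ fun a _ => ?_
        have := deg_of_dep (α := α) hZ.deg (Finset.univ.erase a) (Fm a)
          (fun z z' h => hFm a z z' fun b hb => h b (Finset.mem_erase.mpr ⟨hb, Finset.mem_univ b⟩))
        rwa [Finset.card_erase_of_mem (Finset.mem_univ a), Finset.card_univ] at this
      have h5 : Deg (fun y => g (w + Z y)) C := hZ.deg (fun t => g (w + t))
      have h6 := (h3.comap (Function.Embedding.inl : (Σ _ : α, ι) ↪ (Σ _ : α, ι) ⊕ ι)).mul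
        (h5.comap (Function.Embedding.inr : ι ↪ (Σ _ : α, ι) ⊕ ι))
      refine h6.mono ?_
      have hpos : 0 < Fintype.card α := Fintype.card_pos
      obtain ⟨m, hm⟩ : ∃ m, Fintype.card α = m + 1 := ⟨Fintype.card α - 1, by omega⟩
      rw [hm]
      simp only [Nat.add_sub_cancel]
      rw [Nat.succ_mul]
  · -- martingale property
    intro g
    have hS0 : ev (SS : (ι → Bool) → ℝ) = 0 := ev_SS
    -- left side
    have hL : ev (fun x => SS x * g (Z' x))
        = ev (fun y => T y * ((1 - I y) * g (T y))) + M * ev (fun y => g (w + Z y))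
          + P * ev (fun y => Z y * g (w + Z y)) := by
      have h1 : (fun x => SS x * g (Z' x)) = fun x : ((Σ _ : α, ι) ⊕ ι) → Bool =>
          (((fun y => SS y * ((1 - I y) * g (T y))) (fun k => x (Sum.inl k)) * (fun _ => (1:ℝ)) (fun k => x (Sum.inr k))
          + (fun y => (1 - I y) * g (T y)) (fun k => x (Sum.inl k)) * SS (fun k => x (Sum.inr k)))
          + ((fun y => SS y * I y) (fun k => x (Sum.inl k)) * (fun y => g (w + Z y)) (fun k => x (Sum.inr k))
          + I (fun k => x (Sum.inl k)) * (fun y => SS y * g (w + Z y)) (fun k => x (Sum.inr k)))) := by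
        ext x
        rw [hsplit g x, SS_sumType]
        ring
      have e1 := hev (fun y => SS y * ((1 - I y) * g (T y))) (fun y => (1 - I y) * g (T y))
        (fun _ => (1:ℝ)) SS
      have e2 := hev (fun y => SS y * I y) I (fun y => g (w + Z y)) (fun y => SS y * g (w + Z y))
      refine (congrArg ev h1).trans ((ev_add _ _).trans ((congrArg₂ (· + ·) e1 e2).trans ?_))
      rw [hS0, ev_const]
      have hm1 : ev (fun y => SS y * ((1 - I y) * g (T y))) = ev (fun y => T y * ((1 - I y) * g (T y))) :=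
        mart_block hZ.mart (fun z => (1 - ind A z) * g (∑ a, z a))
      have hm2 : ev (fun y => SS y * I y) = M := mart_block hZ.mart (fun z => ind A z)
      have hm3 : ev (fun y => SS y * g (w + Z y)) = ev (fun y => Z y * g (w + Z y)) :=
        hZ.mart (fun t => g (w + t))
      rw [hm1, hm2, hm3, hEI]
      ring
    have hR : ev (fun x => Z' x * g (Z' x))
        = ev (fun y => T y * ((1 - I y) * g (T y))) + P * ev (fun y => (w + Z y) * g (w + Z y)) := by
      have h1 : (fun x => Z' x * g (Z' x)) = fun x : ((Σ _ : α, ι) ⊕ ι) → Bool =>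
          ((fun y => T y * ((1 - I y) * g (T y))) (fun k => x (Sum.inl k)) * (fun _ => (1:ℝ)) (fun k => x (Sum.inr k))
          + I (fun k => x (Sum.inl k)) * (fun y => (w + Z y) * g (w + Z y)) (fun k => x (Sum.inr k))) := by
        ext x
        rw [hsplit (fun t => t * g t) x]
        ring
      have e1 := hev (fun y => T y * ((1 - I y) * g (T y))) I
        (fun _ => (1:ℝ)) (fun y => (w + Z y) * g (w + Z y))
      refine (congrArg ev h1).trans (e1.trans ?_)
      rw [ev_const, hEI]
      ring
    rw [hL, hR]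
    have h7 : ev (fun y => (w + Z y) * g (w + Z y)) = w * ev (fun y => g (w + Z y))
        + ev (fun y => Z y * g (w + Z y)) := by
      have : (fun y => (w + Z y) * g (w + Z y)) = fun y => w * g (w + Z y) + Z y * g (w + Z y) := by
        ext y; ring
      rw [this, ev_add, ev_smul]
    rw [h7, ← hPw]; ring
  · -- second moment
    set v : ℝ := ev (fun y => Z y ^ 2) with hv
    have h1 : ev (fun x => Z' x ^ 2) = ev (fun y => (1 - I y) * T y ^ 2) + P * (w ^ 2 + v) := by
      have h1 : (fun x => Z' x ^ 2) = fun x : ((Σ _ : α, ι) ⊕ ι) → Bool =>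
          ((fun y => (1 - I y) * T y ^ 2) (fun k => x (Sum.inl k)) * (fun _ => (1:ℝ)) (fun k => x (Sum.inr k))
          + I (fun k => x (Sum.inl k)) * (fun y => (w + Z y) ^ 2) (fun k => x (Sum.inr k))) := by
        ext x
        rw [hsplit (fun t => t ^ 2) x]
        ring
      have e1 := hev (fun y => (1 - I y) * T y ^ 2) I
        (fun _ => (1:ℝ)) (fun y => (w + Z y) ^ 2)
      refine (congrArg ev h1).trans (e1.trans ?_)
      rw [ev_const, hEI]
      have h2 : ev (fun y => (w + Z y) ^ 2) = w ^ 2 + v := by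
        have : (fun y => (w + Z y) ^ 2) = fun y => (w ^ 2 + (2 * w) * Z y) + Z y ^ 2 := by
          ext y; ring
        rw [this, ev_add (fun y => w ^ 2 + (2 * w) * Z y) _, ev_add (fun _ => w ^ 2) _, ev_const, ev_smul, hZ0]
        ring
      rw [h2]; ring
    have h2 : ev (fun y => (1 - I y) * T y ^ 2)
        = Fintype.card α * v - ev (fun y => I y * T y ^ 2) := by
      have h3 : (fun y => (1 - I y) * T y ^ 2) = fun y => T y ^ 2 + (-1) * (I y * T y ^ 2) := by
        ext y; ring
      rw [h3, ev_add, ev_smul]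
      have h4 : ev (fun y => T y ^ 2) = Fintype.card α * v := ev_zsum_sq hZ0
      rw [h4]; ring
    have h3 : ev (fun x : (Σ _ : α, ι) → Bool => ind A (zv Z x) * (v - zsum Z x ^ 2))
        = v * P - ev (fun y => I y * T y ^ 2) := by
      have h4 : (fun x : (Σ _ : α, ι) → Bool => ind A (zv Z x) * (v - zsum Z x ^ 2))
          = fun x => v * I x + (-1) * (I x * T x ^ 2) := by
        ext x; simp only [hI, hT]; ring
      rw [h4, ev_add, ev_smul, ev_smul, hEI]; ring
    have hP0 : 0 ≤ P := by
      rw [hP]; unfold ev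
      exact div_nonneg (Finset.sum_nonneg fun x _ => ind_nonneg A _) (by positivity)
    rw [h1, h2, h3]
    nlinarith [mul_nonneg hP0 (sq_nonneg w)]

end Crest.Agent.R063

end
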