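import Crest.Agent.R063.KDefs

/-!
# R063, MODULE 3: the gain of the event `A`

Index set `α = Option β`, `β = Option (Fin K)`: `none : α` is the free coordinate `x_j`,
`some b : α` the coordinates with thin cells.
-/

set_option autoImplicit false
set_option linter.unusedSectionVars false

open Finset

noncomputable section

namespace Crest.Agent.R063

/-! ### expectation of products with a squared sum -/

section Q

variable {ι : Type} [Fintype ι] [DecidableEq ι]

lemma ev_mono {F G : (ι → Bool) → ℝ} (h : ∀ x, F x ≤ G x) : ev F ≤ ev G := by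
  unfold ev
  exact div_le_div_of_nonneg_right (Finset.sum_le_sum fun x _ => h x) (by positivity)

lemma ev_nonneg {F : (ι → Bool) → ℝ} (h : ∀ x, 0 ≤ F x) : 0 ≤ ev F := by
  unfold ev
  exact div_nonneg (Finset.sum_nonneg fun x _ => h x) (by positivity)

lemma ev_sub (F G : (ι → Bool) → ℝ) : ev (fun x => F x - G x) = ev F - ev G := by
  unfold ev; rw [Finset.sum_sub_distrib, sub_div]

lemma ev_eq_zero {F : (ι → Bool) → ℝ} (h : ∀ x, 0 ≤ F x) (h0 : ev F = 0) : ∀ x, F x = 0 := by
  unfold ev at h0
  rw [div_eq_zero_iff] at h0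
  rcases h0 with h0 | h0
  · intro x
    exact (Finset.sum_eq_zero_iff_of_nonneg (fun x _ => h x)).mp h0 x (Finset.mem_univ x)
  · exact absurd h0 (by positivity)

/-- conditional mean under the weight `f` -/
def mn (Y : (ι → Bool) → ℝ) (f : (ι → Bool) → ℝ) : ℝ := ev (fun y => f y * Y y) / ev f
/-- conditional second moment under the weight `f` -/
def sc (Y : (ι → Bool) → ℝ) (f : (ι → Bool) → ℝ) : ℝ := ev (fun y => f y * Y y ^ 2) / ev f
/-- conditional variance under the weight `f` -/
def vr (Y : (ι → Bool) → ℝ) (f : (ι → Bool) → ℝ) : ℝ := sc Y f - mn Y f ^ 2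

lemma ev_shift (Y : (ι → Bool) → ℝ) (f : (ι → Bool) → ℝ) (hf : ev f ≠ 0) (c : ℝ) :
    ev (fun y => f y * (Y y + c) ^ 2) = ev f * (vr Y f + (mn Y f + c) ^ 2) := by
  have h1 : (fun y => f y * (Y y + c) ^ 2) =
      fun y => (f y * Y y ^ 2 + (2 * c) * (f y * Y y)) + c ^ 2 * f y := by
    funext y; ring
  have h2 : ev (fun y => f y * Y y ^ 2) = ev f * sc Y f := by
    unfold sc; field_simp
  have h3 : ev (fun y => f y * Y y) = ev f * mn Y f := by
    unfold mn; field_simp
  rw [h1, ev_add, ev_add, ev_smul, ev_smul, h2, h3]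
  unfold vr
  ring

lemma vr_nonneg (Y : (ι → Bool) → ℝ) (f : (ι → Bool) → ℝ) (hf : 0 < ev f) (h0 : ∀ y, 0 ≤ f y) :
    0 ≤ vr Y f := by
  have h1 := ev_shift Y f hf.ne' (-mn Y f)
  have h2 : 0 ≤ ev (fun y => f y * (Y y + -mn Y f) ^ 2) :=
    ev_nonneg fun y => mul_nonneg (h0 y) (sq_nonneg _)
  rw [h1] at h2
  have h3 : mn Y f + -mn Y f = 0 := by ring
  rw [h3] at h2
  have h4 : 0 ≤ ev f * vr Y f := by nlinarith
  exact nonneg_of_mul_nonneg_right h4 hf

lemma vr_le (Y : (ι → Bool) → ℝ) (f : (ι → Bool) → ℝ) (hf : 0 < ev f) (h0 : ∀ y, 0 ≤ f y)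
    (c r : ℝ) (hr : ∀ y, f y ≠ 0 → |Y y - c| ≤ r) : vr Y f ≤ r ^ 2 := by
  have h1 := ev_shift Y f hf.ne' (-c)
  have h2 : ev (fun y => f y * (Y y + -c) ^ 2) ≤ ev (fun y => r ^ 2 * f y) := by
    refine ev_mono fun y => ?_
    by_cases hy : f y = 0
    · rw [hy]; simp
    · have h3 := hr y hy
      have h4 : (Y y + -c) ^ 2 ≤ r ^ 2 := by
        have h5 : Y y + -c = Y y - c := by ring
        rw [h5, ← sq_abs]
        exact pow_le_pow_left₀ (abs_nonneg _) h3 2
      have h6 := h0 y
      nlinarith
  rw [h1, ev_smul] at h2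
  have h5 : vr Y f + (mn Y f + -c) ^ 2 ≤ r ^ 2 := by
    have : ev f * (vr Y f + (mn Y f + -c) ^ 2) ≤ ev f * r ^ 2 := by linarith
    exact le_of_mul_le_mul_left this hf
  nlinarith [sq_nonneg (mn Y f + -c)]

lemma mn_mem (Y : (ι → Bool) → ℝ) (f : (ι → Bool) → ℝ) (hf : 0 < ev f) (h0 : ∀ y, 0 ≤ f y)
    (a b : ℝ) (hr : ∀ y, f y ≠ 0 → a ≤ Y y ∧ Y y ≤ b) : a ≤ mn Y f ∧ mn Y f ≤ b := by
  constructor
  · unfold mn
    rw [le_div_iff₀ hf, ← ev_smul]
    refine ev_mono fun y => ?_
    by_cases hy : f y = 0
    · rw [hy]; simp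
    · have h3 := (hr y hy).1
      have h6 := h0 y
      nlinarith
  · unfold mn
    rw [div_le_iff₀ hf, ← ev_smul]
    refine ev_mono fun y => ?_
    by_cases hy : f y = 0
    · rw [hy]; simp
    · have h3 := (hr y hy).2
      have h6 := h0 y
      nlinarith

variable {α : Type} [Fintype α] [DecidableEq α]

theorem ev_prod_sq (Y : (ι → Bool) → ℝ) (f : α → (ι → Bool) → ℝ) (hf : ∀ a, ev (f a) ≠ 0) :
    ev (fun x : (Σ _ : α, ι) → Bool =>
      (∏ a, f a (fun k => x ⟨a, k⟩)) * (1 - zsum Y x ^ 2))
      = (∏ a, ev (f a)) * (1 - ∑ a, vr Y (f a) - (∑ a, mn Y (f a)) ^ 2) := by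
  -- the diagonal and off-diagonal products
  have key : ∀ a a' : α, ev (fun x : (Σ _ : α, ι) → Bool =>
      (∏ c, f c (fun k => x ⟨c, k⟩)) * (zv Y x a * zv Y x a')) =
      (∏ c, ev (f c)) * (mn Y (f a) * mn Y (f a') + if a = a' then vr Y (f a) else 0) := by
    intro a a'
    set φ : α → (ι → Bool) → ℝ := fun c y =>
      f c y * ((if c = a then Y y else 1) * (if c = a' then Y y else 1)) with hφ
    have h1 : (fun x : (Σ _ : α, ι) → Bool =>
        (∏ c, f c (fun k => x ⟨c, k⟩)) * (zv Y x a * zv Y x a')) =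
        fun x => ∏ c, φ c (fun k => x ⟨c, k⟩) := by
      funext x
      simp only [hφ]
      rw [Finset.prod_mul_distrib, Finset.prod_mul_distrib]
      rw [Finset.prod_ite_eq' Finset.univ a (fun c => Y (fun k => x ⟨c, k⟩)),
        Finset.prod_ite_eq' Finset.univ a' (fun c => Y (fun k => x ⟨c, k⟩))]
      simp [zv]
    rw [h1, ev_prod φ]
    have h2 : ∀ c, ev (φ c) = ev (f c) * ((if c = a then (if c = a' then sc Y (f c) else mn Y (f c))
        else (if c = a' then mn Y (f c) else 1))) := by
      intro c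
      simp only [hφ]
      by_cases hca : c = a
      · by_cases hca' : c = a'
        · simp only [hca, if_true]
          rw [← hca', hca]
          have : (fun y => f a y * (Y y * Y y)) = fun y => f a y * Y y ^ 2 := by
            funext y; ring
          rw [if_pos rfl]
          simp only [if_true]
          rw [this]
          have h := hf a
          unfold sc; field_simp
        · simp only [if_pos hca, if_neg hca', mul_one]
          have h := hf c
          unfold mn; field_simp
      · by_cases hca' : c = a'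
        · simp only [if_neg hca, if_pos hca', one_mul]
          have h := hf c
          unfold mn; field_simp
        · simp only [if_neg hca, if_neg hca', mul_one]
    rw [Finset.prod_congr rfl fun c _ => h2 c, Finset.prod_mul_distrib]
    congr 1
    by_cases haa : a = a'
    · subst haa
      rw [if_pos rfl]
      have h3 : ∀ c, (if c = a then (if c = a then sc Y (f c) else mn Y (f c))
        else (if c = a then mn Y (f c) else 1)) = if c = a then sc Y (f c) else 1 := by
        intro c
        by_cases hca : c = a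
        · simp [hca]
        · simp [hca]
      rw [Finset.prod_congr rfl fun c _ => h3 c, Finset.prod_ite_eq' Finset.univ a]
      simp only [Finset.mem_univ, if_true]
      unfold vr
      ring
    · rw [if_neg haa, add_zero]
      have h3 : ∀ c, (if c = a then (if c = a' then sc Y (f c) else mn Y (f c))
        else (if c = a' then mn Y (f c) else 1)) =
          (if c = a then mn Y (f c) else 1) * (if c = a' then mn Y (f c) else 1) := by
        intro c
        by_cases hca : c = a
        · have : c ≠ a' := fun h => haa (hca ▸ h)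
          simp [hca, haa]
        · simp [hca]
      rw [Finset.prod_congr rfl fun c _ => h3 c, Finset.prod_mul_distrib,
        Finset.prod_ite_eq' Finset.univ a, Finset.prod_ite_eq' Finset.univ a']
      simp
  have h0 : ev (fun x : (Σ _ : α, ι) → Bool => (∏ a, f a (fun k => x ⟨a, k⟩))) =
      ∏ a, ev (f a) := ev_prod f
  have h1 : (fun x : (Σ _ : α, ι) → Bool =>
      (∏ a, f a (fun k => x ⟨a, k⟩)) * (1 - zsum Y x ^ 2)) = fun x =>
      (∏ a, f a (fun k => x ⟨a, k⟩)) - ∑ a, ∑ a', (∏ c, f c (fun k => x ⟨c, k⟩)) *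
        (zv Y x a * zv Y x a') := by
    funext x
    unfold zsum
    rw [sq, Finset.sum_mul_sum, mul_sub, mul_one, Finset.mul_sum]
    congr 1
    refine Finset.sum_congr rfl fun a _ => ?_
    rw [Finset.mul_sum]
  rw [h1, ev_sub, h0, ev_sum]
  have h2 : ∀ a, ev (fun x : (Σ _ : α, ι) → Bool => ∑ a', (∏ c, f c (fun k => x ⟨c, k⟩)) *
        (zv Y x a * zv Y x a')) = (∏ c, ev (f c)) * (mn Y (f a) * (∑ a', mn Y (f a')) + vr Y (f a)) := by
    intro a
    rw [ev_sum, Finset.sum_congr rfl fun a' _ => key a a', ← Finset.mul_sum]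
    congr 1
    rw [Finset.sum_add_distrib, ← Finset.mul_sum, Finset.sum_ite_eq]
    simp
  rw [Finset.sum_congr rfl fun a _ => h2 a, ← Finset.mul_sum, Finset.sum_add_distrib,
    ← Finset.sum_mul]
  ring

end Q

/-! ### the event -/

section Event

variable {β : Type} [Fintype β] [DecidableEq β]

/-- the event `A` -/
def evA (V I : β → Set ℝ) : Set (Option β → ℝ) :=
  {z | ∀ a, z none ∈ I a → (∀ b, b ≠ a → z (some b) ∈ V b) ∧ z (some a) ∉ V a}

lemma ind_mem {γ : Type} {A : Set γ} {z : γ} (h : z ∈ A) : ind A z = 1 := by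
  unfold ind; exact Set.indicator_of_mem h _

lemma ind_notMem {γ : Type} {A : Set γ} {z : γ} (h : z ∉ A) : ind A z = 0 := by
  unfold ind; exact Set.indicator_of_notMem h _

lemma ind_nonneg_g {γ : Type} (A : Set γ) (z : γ) : 0 ≤ ind A z := by
  unfold ind; exact Set.indicator_nonneg (fun _ _ => zero_le_one) _

lemma ind_evA (V I : β → Set ℝ) (hI : ∀ t, ∃! b, t ∈ I b) (z : Option β → ℝ) :
    ind (evA V I) z = (∑ a, ind (I a) (z none) *
      ∏ b, (if b = a then 1 else ind (V b) (z (some b)))) - ∏ b, ind (V b) (z (some b)) := by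
  classical
  obtain ⟨a, ha, hu⟩ := hI (z none)
  have h1 : ∑ a', ind (I a') (z none) * ∏ b, (if b = a' then 1 else ind (V b) (z (some b))) =
      ∏ b, (if b = a then 1 else ind (V b) (z (some b))) := by
    rw [Finset.sum_eq_single a]
    · rw [ind_mem ha, one_mul]
    · intro a' _ hne
      have : z none ∉ I a' := fun h => hne (hu a' h)
      rw [ind_notMem this, zero_mul]
    · intro h; exact absurd (Finset.mem_univ a) h
  rw [h1]
  by_cases hall : ∀ b, b ≠ a → z (some b) ∈ V b
  · have h2 : ∏ b, (if b = a then 1 else ind (V b) (z (some b))) = (1 : ℝ) := by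
      refine Finset.prod_eq_one fun b _ => ?_
      split_ifs with hb
      · rfl
      · exact ind_mem (hall b hb)
    rw [h2]
    by_cases hva : z (some a) ∈ V a
    · have h3 : ∏ b, ind (V b) (z (some b)) = (1 : ℝ) := by
        refine Finset.prod_eq_one fun b _ => ?_
        by_cases hb : b = a
        · rw [hb]; exact ind_mem hva
        · exact ind_mem (hall b hb)
      have h4 : z ∉ evA V I := fun h => (h a ha).2 hva
      rw [h3, ind_notMem h4]; ring
    · have h3 : ∏ b, ind (V b) (z (some b)) = (0 : ℝ) :=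
        Finset.prod_eq_zero (Finset.mem_univ a) (ind_notMem hva)
      have h4 : z ∈ evA V I := by
        intro a' ha'
        have : a' = a := hu a' ha'
        subst this
        exact ⟨hall, hva⟩
      rw [h3, ind_mem h4]; ring
  · push Not at hall
    obtain ⟨b, hb, hbV⟩ := hall
    have h2 : ∏ b, (if b = a then 1 else ind (V b) (z (some b))) = (0 : ℝ) := by
      refine Finset.prod_eq_zero (Finset.mem_univ b) ?_
      rw [if_neg hb]; exact ind_notMem hbV
    have h3 : ∏ b, ind (V b) (z (some b)) = (0 : ℝ) :=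
      Finset.prod_eq_zero (Finset.mem_univ b) (ind_notMem hbV)
    have h4 : z ∉ evA V I := fun h => hbV ((h a ha).1 b hb)
    rw [h2, h3, ind_notMem h4]; ring

lemma junta_evA (V I : β → Set ℝ) (hI : ∀ t, ∃! b, t ∈ I b) : Junta (evA V I) := by
  refine ⟨fun a z => match a with
    | none => - ∏ b, ind (V b) (z (some b))
    | some a => ind (I a) (z none) * ∏ b, (if b = a then 1 else ind (V b) (z (some b))), ?_, ?_⟩
  · intro a z z' h
    cases a with
    | none =>
      simp only
      congr 1
      refine Finset.prod_congr rfl fun b _ => ?_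
      rw [h (some b) (by simp)]
    | some a =>
      simp only
      rw [h none (by simp)]
      congr 1
      refine Finset.prod_congr rfl fun b _ => ?_
      split_ifs with hb
      · rfl
      · rw [h (some b) (by simpa using hb)]
  · intro z
    rw [Fintype.sum_option, ind_evA V I hI]
    ring

variable {ι : Type} [Fintype ι] [DecidableEq ι]

/-- indicator of `Y ∈ s` -/
def iv (Y : (ι → Bool) → ℝ) (s : Set ℝ) : (ι → Bool) → ℝ := fun y => ind s (Y y)

lemma iv_nonneg (Y : (ι → Bool) → ℝ) (s : Set ℝ) (y : ι → Bool) : 0 ≤ iv Y s y := ind_nonneg_g _ _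

lemma iv_ne_zero {Y : (ι → Bool) → ℝ} {s : Set ℝ} {y : ι → Bool} (h : iv Y s y ≠ 0) : Y y ∈ s := by
  by_contra hn
  exact h (ind_notMem hn)

lemma ev_iv (Y : (ι → Bool) → ℝ) (s : Set ℝ) : ev (iv Y s) = pr Y s := rfl

/-- the conditional mean of `Y` on `Y ∈ s` -/
def cm (Y : (ι → Bool) → ℝ) (s : Set ℝ) : ℝ := mn Y (iv Y s)
/-- the conditional variance of `Y` on `Y ∈ s` -/
def cv (Y : (ι → Bool) → ℝ) (s : Set ℝ) : ℝ := vr Y (iv Y s)

set_option maxHeartbeats 1000000 in
theorem gain_abs (V I : β → Set ℝ) (hI : ∀ t, ∃! b, t ∈ I b) (Y : (ι → Bool) → ℝ)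
    (h0 : ev Y = 0) (h1 : ev (fun y => Y y ^ 2) = 1) (hp : ∀ b, 0 < pr Y (V b)) :
    (∏ b, pr Y (V b)) * ((∑ b, cm Y (V b)) ^ 2 -
      ∑ a, (ev (fun y => iv Y (I a) y * (Y y + (∑ b, cm Y (V b) - cm Y (V a))) ^ 2) +
        pr Y (I a) * ∑ b, cv Y (V b)) / pr Y (V a)) ≤
    ev (fun x : (Σ _ : Option β, ι) → Bool => ind (evA V I) (zv Y x) * (1 - zsum Y x ^ 2)) := by
  set M := ∑ b, cm Y (V b) with hM
  set Vt := ∑ b, cv Y (V b) with hVt
  have hcv : ∀ b, 0 ≤ cv Y (V b) := fun b => vr_nonneg Y _ (hp b) (iv_nonneg Y _)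
  have hVt0 : 0 ≤ Vt := Finset.sum_nonneg fun b _ => hcv b
  -- decomposition
  set fU : Option β → (ι → Bool) → ℝ := fun c => match c with
    | none => fun _ => 1
    | some b => iv Y (V b) with hfU
  set fB : β → Option β → (ι → Bool) → ℝ := fun a c => match c with
    | none => iv Y (I a)
    | some b => if b = a then (fun _ => 1) else iv Y (V b) with hfB
  have hdec : (fun x : (Σ _ : Option β, ι) → Bool =>
      ind (evA V I) (zv Y x) * (1 - zsum Y x ^ 2)) = fun x =>
      (∑ a, (∏ c, fB a c (fun k => x ⟨c, k⟩)) * (1 - zsum Y x ^ 2)) -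
        (∏ c, fU c (fun k => x ⟨c, k⟩)) * (1 - zsum Y x ^ 2) := by
    funext x
    rw [ind_evA V I hI, sub_mul, Finset.sum_mul]
    congr 1
    · refine Finset.sum_congr rfl fun a _ => ?_
      congr 1
      rw [Fintype.prod_option]
      simp only [hfB]
      congr 1
      refine Finset.prod_congr rfl fun b _ => ?_
      split_ifs with hb
      · rfl
      · rfl
    · congr 1
      rw [Fintype.prod_option]
      simp only [hfU, one_mul]
      rfl
  rw [hdec, ev_sub, ev_sum]
  have h1m : ev (fun _ : ι → Bool => (1 : ℝ)) = 1 := ev_const 1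
  have hmn1 : mn Y (fun _ => 1) = 0 := by
    unfold mn
    rw [h1m]
    simp only [one_mul, div_one]
    exact h0
  have hvr1 : vr Y (fun _ => 1) = 1 := by
    unfold vr sc
    rw [hmn1, h1m]
    simp only [one_mul, div_one]
    rw [h1]; ring
  have hprod : 0 < ∏ b, pr Y (V b) := Finset.prod_pos fun b _ => hp b
  -- the term U
  have hU : ev (fun x : (Σ _ : Option β, ι) → Bool =>
      (∏ c, fU c (fun k => x ⟨c, k⟩)) * (1 - zsum Y x ^ 2)) =
      - ((∏ b, pr Y (V b)) * (Vt + M ^ 2)) := by
    rw [ev_prod_sq Y fU]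
    · rw [Fintype.prod_option, Fintype.sum_option, Fintype.sum_option]
      simp only [hfU, h1m, hmn1, hvr1, one_mul, zero_add]
      have e1 : ∑ b, vr Y (iv Y (V b)) = Vt := rfl
      have e2 : ∑ b, mn Y (iv Y (V b)) = M := rfl
      have e3 : ∏ b, ev (iv Y (V b)) = ∏ b, pr Y (V b) := rfl
      rw [e1, e2, e3]
      ring
    · intro c
      cases c with
      | none => simp only [hfU, h1m]; norm_num
      | some b => simp only [hfU]; exact (hp b).ne'
  -- the terms B
  have hB : ∀ a, - ((∏ b, pr Y (V b)) *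
      ((ev (fun y => iv Y (I a) y * (Y y + (M - cm Y (V a))) ^ 2) +
        pr Y (I a) * Vt) / pr Y (V a))) ≤
      ev (fun x : (Σ _ : Option β, ι) → Bool =>
        (∏ c, fB a c (fun k => x ⟨c, k⟩)) * (1 - zsum Y x ^ 2)) := by
    intro a
    have hq0 : 0 ≤ pr Y (I a) := ev_nonneg (iv_nonneg Y _)
    have hE0 : 0 ≤ ev (fun y => iv Y (I a) y * (Y y + (M - cm Y (V a))) ^ 2) :=
      ev_nonneg fun y => mul_nonneg (iv_nonneg Y _ y) (sq_nonneg _)
    by_cases hq : pr Y (I a) = 0
    · have h2 : ∀ y, iv Y (I a) y = 0 := ev_eq_zero (iv_nonneg Y _) hq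
      have h3 : (fun x : (Σ _ : Option β, ι) → Bool =>
          (∏ c, fB a c (fun k => x ⟨c, k⟩)) * (1 - zsum Y x ^ 2)) = fun _ => 0 := by
        funext x
        have : ∏ c, fB a c (fun k => x ⟨c, k⟩) = 0 := by
          refine Finset.prod_eq_zero (Finset.mem_univ none) ?_
          simp only [hfB]
          exact h2 _
        rw [this, zero_mul]
      rw [h3, ev_const]
      rw [neg_nonpos]
      have := hp a
      positivity
    · have hqp : 0 < pr Y (I a) := lt_of_le_of_ne hq0 (Ne.symm hq)
      rw [ev_prod_sq Y (fB a)]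
      · rw [Fintype.prod_option, Fintype.sum_option, Fintype.sum_option]
        have e1 : ∑ b, vr Y (fB a (some b)) = Vt - cv Y (V a) + 1 := by
          rw [hVt, ← Finset.add_sum_erase Finset.univ _ (Finset.mem_univ a),
            ← Finset.add_sum_erase Finset.univ (fun b => cv Y (V b)) (Finset.mem_univ a)]
          have e2 : vr Y (fB a (some a)) = 1 := by
            simp only [hfB, if_true]; exact hvr1
          have e3 : ∑ b ∈ Finset.univ.erase a, vr Y (fB a (some b)) =
              ∑ b ∈ Finset.univ.erase a, cv Y (V b) := by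
            refine Finset.sum_congr rfl fun b hb => ?_
            have hne : b ≠ a := (Finset.mem_erase.mp hb).1
            simp only [hfB, if_neg hne]
            rfl
          rw [e2, e3]; ring
        have e4 : ∑ b, mn Y (fB a (some b)) = M - cm Y (V a) := by
          rw [hM, ← Finset.add_sum_erase Finset.univ _ (Finset.mem_univ a),
            ← Finset.add_sum_erase Finset.univ (fun b => cm Y (V b)) (Finset.mem_univ a)]
          have e2 : mn Y (fB a (some a)) = 0 := by
            simp only [hfB, if_true]; exact hmn1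
          have e3 : ∑ b ∈ Finset.univ.erase a, mn Y (fB a (some b)) =
              ∑ b ∈ Finset.univ.erase a, cm Y (V b) := by
            refine Finset.sum_congr rfl fun b hb => ?_
            have hne : b ≠ a := (Finset.mem_erase.mp hb).1
            simp only [hfB, if_neg hne]
            rfl
          rw [e2, e3]; ring
        have e5 : pr Y (V a) * ∏ b, ev (fB a (some b)) = ∏ b, pr Y (V b) := by
          rw [← Finset.mul_prod_erase Finset.univ (fun b => ev (fB a (some b))) (Finset.mem_univ a),
            ← Finset.mul_prod_erase Finset.univ (fun b => pr Y (V b)) (Finset.mem_univ a)]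
          have e2 : ev (fB a (some a)) = 1 := by
            simp only [hfB, if_true]; exact h1m
          have e3 : ∏ b ∈ Finset.univ.erase a, ev (fB a (some b)) =
              ∏ b ∈ Finset.univ.erase a, pr Y (V b) := by
            refine Finset.prod_congr rfl fun b hb => ?_
            have hne : b ≠ a := (Finset.mem_erase.mp hb).1
            simp only [hfB, if_neg hne]
            rfl
          rw [e2, e3]; ring
        rw [e1, e4]
        have e6 : fB a none = iv Y (I a) := rfl
        rw [e6, ev_iv]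
        have e7 := ev_shift Y (iv Y (I a)) (by rw [ev_iv]; exact hqp.ne') (M - cm Y (V a))
        rw [ev_iv] at e7
        rw [e7]
        set P' := ∏ b, ev (fB a (some b)) with hP'
        have hpa := hp a
        have hP'0 : 0 < P' := by
          have : 0 < pr Y (V a) * P' := by rw [e5]; exact hprod
          exact (mul_pos_iff_of_pos_left hpa).mp this
        rw [← e5]
        have e8 : pr Y (V a) * P' * ((pr Y (I a) * (vr Y (iv Y (I a)) +
            (mn Y (iv Y (I a)) + (M - cm Y (V a))) ^ 2) + pr Y (I a) * Vt) / pr Y (V a)) =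
            P' * pr Y (I a) * (vr Y (iv Y (I a)) +
            (mn Y (iv Y (I a)) + (M - cm Y (V a))) ^ 2 + Vt) := by
          field_simp
        rw [e8]
        have h5 := hcv a
        have h6 : 0 ≤ P' * pr Y (I a) * cv Y (V a) := by positivity
        nlinarith
      · intro c
        cases c with
        | none => simp only [hfB]; exact hq
        | some b =>
          by_cases hb : b = a
          · simp only [hfB, if_pos hb, h1m]; norm_num
          · simp only [hfB, if_neg hb]; exact (hp b).ne'
  rw [hU]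
  have hsum : - ((∏ b, pr Y (V b)) * ∑ a, (ev (fun y => iv Y (I a) y *
      (Y y + (M - cm Y (V a))) ^ 2) + pr Y (I a) * Vt) / pr Y (V a)) ≤
      ∑ a, ev (fun x : (Σ _ : Option β, ι) → Bool =>
        (∏ c, fB a c (fun k => x ⟨c, k⟩)) * (1 - zsum Y x ^ 2)) := by
    rw [Finset.mul_sum, ← Finset.sum_neg_distrib]
    exact Finset.sum_le_sum fun a _ => hB a
  have h7 : 0 ≤ (∏ b, pr Y (V b)) * Vt := mul_nonneg hprod.le hVt0
  clear_value M Vt fU fB
  linarith

end Event

end Crest.Agent.R063

end
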