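import Crest.Agent.R063.KGain

/-!
# R063, MODULE 3: the gain for the concrete parameters
-/

set_option autoImplicit false
set_option linter.unusedSectionVars false

open Finset

noncomputable section

namespace Crest.Agent.R063

/-- thin cells -/
def Vv (n : ℕ) (v0 : ℝ) : Option (Fin (KK n)) → Set ℝ
  | none => Set.Ico v0 (v0 + hh n)
  | some b => Vc n b

/-- partition -/
def Iv (n : ℕ) : Option (Fin (KK n)) → Set ℝ
  | none => (Int0 n)ᶜ
  | some b => Ic n b

section Par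

variable {n : ℕ} (hn : 2 ≤ n)

include hn

lemma npos : (0 : ℝ) < n := by
  have : 0 < n := by omega
  exact_mod_cast this

lemma hh_pos_g : 0 < hh n := by
  have := npos hn
  unfold hh; positivity

lemma hp_pos_g : 0 < hp n := by
  have := npos hn
  unfold hp; positivity

lemma tau_pos_g : 0 < tau n := by
  have := npos hn
  unfold tau; positivity

lemma tau_le : tau n ≤ 1 / 2 := by
  have : (2 : ℝ) ≤ n := by exact_mod_cast hn
  unfold tau
  exact one_div_le_one_div_of_le (by norm_num) this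

lemma hh_eq : hh n = tau n ^ 9 := by unfold hh tau; rw [div_pow, one_pow]
lemma hp_eq : hp n = tau n ^ 14 := by unfold hp tau; rw [div_pow, one_pow]

lemma KK_tau : (KK n : ℝ) * tau n ^ 10 = 2 := by
  have := npos hn
  unfold KK tau
  push_cast
  field_simp

lemma n_tau : (n : ℝ) * tau n = 1 := by
  have := npos hn
  unfold tau
  field_simp

lemma KK_hh : (KK n : ℝ) * hh n = 2 * n := by
  have := npos hn
  unfold KK hh
  push_cast
  field_simp

lemma mem_Ic (b : ℕ) (t : ℝ) :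
    t ∈ Ic n b ↔ (b : ℝ) ≤ (t + n + tau n) / hh n ∧ (t + n + tau n) / hh n < b + 1 := by
  have hh0 := hh_pos_g hn
  rw [le_div_iff₀ hh0, div_lt_iff₀ hh0]
  unfold Ic cc
  rw [Set.mem_Ico]
  constructor
  · rintro ⟨h1, h2⟩
    constructor <;> nlinarith
  · rintro ⟨h1, h2⟩
    constructor <;> nlinarith

lemma mem_Int0 (t : ℝ) :
    t ∈ Int0 n ↔ 0 ≤ (t + n + tau n) / hh n ∧ (t + n + tau n) / hh n < KK n := by
  have hh0 := hh_pos_g hn
  have h3 := KK_hh hn
  rw [le_div_iff₀ hh0, div_lt_iff₀ hh0, h3]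
  unfold Int0
  rw [Set.mem_Ico]
  constructor
  · rintro ⟨h1, h2⟩
    constructor <;> nlinarith
  · rintro ⟨h1, h2⟩
    constructor <;> nlinarith

lemma Iv_part (t : ℝ) : ∃! b, t ∈ Iv n b := by
  by_cases ht : t ∈ Int0 n
  · have h1 := (mem_Int0 hn t).mp ht
    set s := (t + n + tau n) / hh n with hs
    have h2 : ⌊s⌋₊ < KK n := (Nat.floor_lt h1.1).mpr h1.2
    refine ⟨some ⟨⌊s⌋₊, h2⟩, ?_, ?_⟩
    · change t ∈ Ic n ⌊s⌋₊
      rw [mem_Ic hn]
      exact ⟨Nat.floor_le h1.1, Nat.lt_floor_add_one s⟩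
    · intro b hb
      cases b with
      | none => exact absurd ht hb
      | some b =>
        have hb' : t ∈ Ic n b := hb
        rw [mem_Ic hn] at hb'
        have h3 : ⌊s⌋₊ = (b : ℕ) := by
          rw [Nat.floor_eq_iff h1.1]
          exact hb'
        congr 1
        exact Fin.ext h3.symm
  · refine ⟨none, ht, ?_⟩
    intro b hb
    cases b with
    | none => rfl
    | some b =>
      exfalso
      have hb' : t ∈ Ic n b := hb
      rw [mem_Ic hn] at hb'
      apply ht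
      rw [mem_Int0 hn]
      have h4 : ((b : ℕ) : ℝ) + 1 ≤ KK n := by exact_mod_cast b.2
      exact ⟨le_trans (by positivity) hb'.1, lt_of_lt_of_le hb'.2 h4⟩

lemma sum_cc : ∑ b : Fin (KK n), cc n b = 0 := by
  have h1 : ∀ K : ℕ, ∑ b : Fin K, cc n b = -(n : ℝ) * K + hh n * (K : ℝ) ^ 2 / 2 := by
    intro K
    induction K with
    | zero => simp
    | succ K ih =>
      rw [Fin.sum_univ_castSucc]
      simp only [Fin.val_castSucc, Fin.val_last]
      rw [ih]
      unfold cc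
      push_cast
      ring
  rw [h1]
  have h2 := KK_hh hn
  have : hh n * (KK n : ℝ) ^ 2 / 2 = ((KK n : ℝ) * hh n) * KK n / 2 := by ring
  rw [this, h2]
  ring

end Par

section Main

variable {ι : Type} [Fintype ι] [DecidableEq ι]

lemma pr_mono (Y : (ι → Bool) → ℝ) {s t : Set ℝ} (h : s ⊆ t) : pr Y s ≤ pr Y t := by
  refine ev_mono fun y => ?_
  by_cases hy : Y y ∈ s
  · rw [ind_mem hy, ind_mem (h hy)]
  · rw [ind_notMem hy]; exact ind_nonneg_g _ _

lemma cm_mem (Y : (ι → Bool) → ℝ) {a b : ℝ} (hp : 0 < pr Y (Set.Ico a b)) :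
    a ≤ cm Y (Set.Ico a b) ∧ cm Y (Set.Ico a b) ≤ b :=
  mn_mem Y _ hp (iv_nonneg Y _) a b fun _ hy => ⟨(iv_ne_zero hy).1, (iv_ne_zero hy).2.le⟩

lemma cv_le (Y : (ι → Bool) → ℝ) {a b : ℝ} (hp : 0 < pr Y (Set.Ico a b)) :
    cv Y (Set.Ico a b) ≤ ((b - a) / 2) ^ 2 := by
  refine vr_le Y _ hp (iv_nonneg Y _) ((a + b) / 2) ((b - a) / 2) fun y hy => ?_
  have h := iv_ne_zero hy
  rw [abs_le]
  constructor <;> [have := h.1; have := h.2] <;> linarith

set_option maxHeartbeats 4000000 in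
theorem gain_conc {n : ℕ} (hn : 2 ≤ n) {C δ : ℝ} (hδ : 0 < δ) (hC : 0 < C)
    (hnC : (820 + 1000 * C) * tau n ≤ 1)
    (Y : (ι → Bool) → ℝ) (hY : Nice n C δ Y) :
    ∃ A : Set (Option (Option (Fin (KK n))) → ℝ), Junta A ∧
      hh n / 100 * δ ^ (KK n) * (tau n ^ 2 / 2) ≤
        ev (fun x : (Σ _ : Option (Option (Fin (KK n))), ι) → Bool =>
          ind A (zv Y x) * (1 - zsum Y x ^ 2)) := by
  have hn0 := npos hn
  have hh0 := hh_pos_g hn
  have hp0 := hp_pos_g hn
  have ht0 := tau_pos_g hn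
  have ht2 := tau_le hn
  set x := tau n with hx
  have hhx : hh n = x ^ 9 := hh_eq hn
  have hpx : hp n = x ^ 14 := hp_eq hn
  have hKx : (KK n : ℝ) * x ^ 10 = 2 := KK_tau hn
  have hnx : (n : ℝ) * x = 1 := n_tau hn
  -- probabilities and means of thin cells
  have hpV : ∀ b : Fin (KK n), 0 < pr Y (Vc n b) := fun b => lt_of_lt_of_le hδ (hY.V_pos b b.2)
  have hmV : ∀ b : Fin (KK n), cc n b - hp n / 2 ≤ cm Y (Vc n b) ∧
      cm Y (Vc n b) ≤ cc n b + hp n / 2 := fun b => cm_mem Y (hpV b)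
  set η := ∑ b : Fin (KK n), cm Y (Vc n b) with hη
  have hη1 : |η| ≤ x ^ 4 := by
    have h1 : η = ∑ b : Fin (KK n), (cm Y (Vc n b) - cc n b) := by
      rw [Finset.sum_sub_distrib, sum_cc hn, sub_zero]
    rw [h1]
    calc |∑ b : Fin (KK n), (cm Y (Vc n b) - cc n b)|
        ≤ ∑ b : Fin (KK n), |cm Y (Vc n b) - cc n b| := Finset.abs_sum_le_sum_abs _ _
      _ ≤ ∑ _b : Fin (KK n), hp n / 2 := by
          refine Finset.sum_le_sum fun b _ => ?_
          have := hmV b
          rw [abs_le]; constructor <;> linarith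
      _ = x ^ 4 := by
          rw [Finset.sum_const, Finset.card_univ, Fintype.card_fin, nsmul_eq_mul, hpx]
          have : (KK n : ℝ) * (x ^ 14 / 2) = ((KK n : ℝ) * x ^ 10) * x ^ 4 / 2 := by ring
          rw [this, hKx]; ring
  have hx4 : x ^ 4 ≤ 1 / 16 := by
    calc x ^ 4 ≤ (1 / 2) ^ 4 := pow_le_pow_left₀ ht0.le ht2 4
      _ = 1 / 16 := by norm_num
  have hx9 : x ^ 9 ≤ 1 / 16 := by
    calc x ^ 9 ≤ (1 / 2) ^ 9 := pow_le_pow_left₀ ht0.le ht2 9
      _ ≤ 1 / 16 := by norm_num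
  set v0 := x - η with hv0
  -- probability of the last cell
  have hpK : x ^ 9 / 100 ≤ pr Y (Set.Ico v0 (v0 + hh n)) := by
    set i : ℤ := ⌈v0 / (hh n / 2)⌉ with hi
    have hh2 : 0 < hh n / 2 := by positivity
    have h1 : v0 ≤ (i : ℝ) * (hh n / 2) := by
      rw [← div_le_iff₀ hh2]; exact Int.le_ceil _
    have h2 : (i : ℝ) * (hh n / 2) < v0 + hh n / 2 := by
      have h3 : (i : ℝ) < v0 / (hh n / 2) + 1 := Int.ceil_lt_add_one _
      calc (i : ℝ) * (hh n / 2) < (v0 / (hh n / 2) + 1) * (hh n / 2) :=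
            mul_lt_mul_of_pos_right h3 hh2
        _ = v0 + hh n / 2 := by field_simp
    have hη2 := abs_le.mp hη1
    have h4 : |(i : ℝ) * (hh n / 2)| ≤ 2 := by
      rw [abs_le]
      rw [hhx] at h2 h1 ⊢
      constructor <;> linarith [hη2.1, hη2.2]
    have h5 := hY.G_le i h4
    rw [← hhx]
    refine h5.trans (pr_mono Y ?_)
    intro t ht
    unfold Gc at ht
    rw [Set.mem_Ico] at ht ⊢
    constructor
    · linarith [ht.1]
    · have h6 : ((i : ℝ) + 1) * (hh n / 2) = (i : ℝ) * (hh n / 2) + hh n / 2 := by ring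
      linarith [ht.2]
  have hpK0 : 0 < pr Y (Set.Ico v0 (v0 + hh n)) := lt_of_lt_of_le (by positivity) hpK
  have hmK := cm_mem Y hpK0
  have hvK := cv_le Y hpK0
  have hpall : ∀ b, 0 < pr Y (Vv n v0 b) := by
    intro b
    cases b with
    | none => exact hpK0
    | some b => exact hpV b
  have hmain := gain_abs (Vv n v0) (Iv n) (Iv_part hn) Y hY.mean hY.var hpall
  refine ⟨evA (Vv n v0) (Iv n), junta_evA _ _ (Iv_part hn), le_trans ?_ hmain⟩
  clear hmain
  set mK := cm Y (Set.Ico v0 (v0 + hh n)) with hmKd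
  have hM : ∑ b, cm Y (Vv n v0 b) = mK + η := by
    rw [Fintype.sum_option]; rfl
  rw [hM]
  set Vt := ∑ b, cv Y (Vv n v0 b) with hVt
  have hVt0 : 0 ≤ Vt := Finset.sum_nonneg fun b _ => vr_nonneg Y _ (hpall b) (iv_nonneg Y _)
  have hVt1 : Vt ≤ 3 / 4 * x ^ 18 := by
    rw [hVt, Fintype.sum_option]
    have h1 : cv Y (Vv n v0 none) ≤ x ^ 18 / 4 := by
      refine hvK.trans ?_
      rw [hhx]
      apply le_of_eq
      ring
    have h2 : ∑ b : Fin (KK n), cv Y (Vv n v0 (some b)) ≤ x ^ 18 / 2 := by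
      calc ∑ b : Fin (KK n), cv Y (Vv n v0 (some b)) ≤ ∑ _b : Fin (KK n), (hp n / 2) ^ 2 := by
            refine Finset.sum_le_sum fun b _ => ?_
            refine (cv_le Y (hpV b)).trans (le_of_eq ?_)
            ring
        _ = x ^ 18 / 2 := by
            rw [Finset.sum_const, Finset.card_univ, Fintype.card_fin, nsmul_eq_mul, hpx]
            have : (KK n : ℝ) * (x ^ 14 / 2) ^ 2 = ((KK n : ℝ) * x ^ 10) * x ^ 18 / 4 := by ring
            rw [this, hKx]; ring
    linarith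
  have hηl := (abs_le.mp hη1).1
  have hηr := (abs_le.mp hη1).2
  have hM1 : x ≤ mK + η := by
    have := hmK.1
    linarith
  have hM2 : mK + η ≤ x + x ^ 9 := by
    have := hmK.2
    rw [hhx] at this
    linarith
  -- the product of the probabilities
  have hP : x ^ 9 / 100 * δ ^ (KK n) ≤ ∏ b, pr Y (Vv n v0 b) := by
    rw [Fintype.prod_option]
    refine mul_le_mul hpK ?_ (by positivity) hpK0.le
    calc δ ^ (KK n) = ∏ _b : Fin (KK n), δ := by
          rw [Finset.prod_const, Finset.card_univ, Fintype.card_fin]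
      _ ≤ ∏ b : Fin (KK n), pr Y (Vv n v0 (some b)) :=
          Finset.prod_le_prod (fun _ _ => hδ.le) fun b _ => hY.V_pos b b.2
  -- the interior terms
  have hpow : ∀ k : ℕ, 0 < x ^ k := fun k => pow_pos ht0 k
  have hint : ∀ b : Fin (KK n), (ev (fun y => iv Y (Iv n (some b)) y *
      (Y y + (mK + η - cm Y (Vv n v0 (some b)))) ^ 2) + pr Y (Iv n (some b)) * Vt) /
        pr Y (Vv n v0 (some b)) ≤ 205 * x ^ 13 := by
    intro b
    have h1 : ev (fun y => iv Y (Iv n (some b)) y *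
      (Y y + (mK + η - cm Y (Vv n v0 (some b)))) ^ 2) ≤ 4 * x ^ 18 * pr Y (Ic n b) := by
      have : 4 * x ^ 18 * pr Y (Ic n b) = ev (fun y => (4 * x ^ 18) * iv Y (Ic n b) y) := by
        rw [ev_smul]; rfl
      rw [this]
      refine ev_mono fun y => ?_
      change iv Y (Ic n b) y * _ ≤ _
      by_cases hy : iv Y (Ic n b) y = 0
      · rw [hy]; simp
      · have h2 := iv_ne_zero hy
        have h3 := iv_nonneg Y (Ic n b) y
        unfold Ic at h2
        rw [Set.mem_Ico] at h2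
        have h4 := hmV b
        change cc n b - hp n / 2 ≤ cm Y (Vv n v0 (some b)) ∧
          cm Y (Vv n v0 (some b)) ≤ cc n b + hp n / 2 at h4
        have h5 : |Y y + (mK + η - cm Y (Vv n v0 (some b)))| ≤ 2 * x ^ 9 := by
          have h6 : hp n ≤ x ^ 9 := by
            rw [hpx]
            exact pow_le_pow_of_le_one ht0.le (by linarith) (by norm_num)
          rw [abs_le]
          rw [hhx] at h2
          constructor <;> linarith [h2.1, h2.2, h4.1, h4.2, hpow 9]
        have h7 : (Y y + (mK + η - cm Y (Vv n v0 (some b)))) ^ 2 ≤ 4 * x ^ 18 := by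
          rw [← sq_abs]
          calc |Y y + (mK + η - cm Y (Vv n v0 (some b)))| ^ 2 ≤ (2 * x ^ 9) ^ 2 :=
                pow_le_pow_left₀ (abs_nonneg _) h5 2
            _ = 4 * x ^ 18 := by ring
        calc _ ≤ iv Y (Ic n b) y * (4 * x ^ 18) := mul_le_mul_of_nonneg_left h7 h3
          _ = _ := by ring
    have hq0 : 0 ≤ pr Y (Ic n b) := ev_nonneg (iv_nonneg Y _)
    have h8 : pr Y (Iv n (some b)) * Vt ≤ pr Y (Ic n b) * (3 / 4 * x ^ 18) :=
      mul_le_mul_of_nonneg_left hVt1 hq0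
    have h9 := hY.I_le b b.2
    have h10 : (n : ℝ) ^ 5 * x ^ 18 = x ^ 13 := by
      have : (n : ℝ) ^ 5 * x ^ 18 = ((n : ℝ) * x) ^ 5 * x ^ 13 := by ring
      rw [this, hnx]; ring
    have h11 : 0 < pr Y (Vv n v0 (some b)) := hpV b
    rw [div_le_iff₀ h11]
    change _ ≤ 205 * x ^ 13 * pr Y (Vc n b)
    calc _ ≤ 4 * x ^ 18 * pr Y (Ic n b) + pr Y (Ic n b) * (3 / 4 * x ^ 18) := add_le_add h1 h8
      _ ≤ 5 * x ^ 18 * pr Y (Ic n b) := by nlinarith [mul_nonneg hq0 (hpow 18).le]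
      _ ≤ 5 * x ^ 18 * (41 * (n : ℝ) ^ 5 * pr Y (Vc n b)) :=
          mul_le_mul_of_nonneg_left h9 (by positivity)
      _ = 205 * ((n : ℝ) ^ 5 * x ^ 18) * pr Y (Vc n b) := by ring
      _ = 205 * x ^ 13 * pr Y (Vc n b) := by rw [h10]
  -- the tail term
  have htail : (ev (fun y => iv Y (Iv n none) y *
      (Y y + (mK + η - cm Y (Vv n v0 none))) ^ 2) + pr Y (Iv n none) * Vt) /
        pr Y (Vv n v0 none) ≤ 500 * C * x ^ 3 := by
    have hT := hY.tail
    set T := ev (fun y => (Int0 n)ᶜ.indicator (fun t => t ^ 2) (Y y)) with hTd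
    have hout : ∀ t, t ∈ (Int0 n)ᶜ → 1 ≤ t ^ 2 := by
      intro t ht
      have h1 : ¬ (-(n : ℝ) - x ≤ t ∧ t < n - x) := ht
      have h2 : (2 : ℝ) ≤ n := by exact_mod_cast hn
      by_cases h3 : -(n : ℝ) - x ≤ t
      · have h4 : (n : ℝ) - x ≤ t := by
          by_contra hc
          exact h1 ⟨h3, not_le.mp hc⟩
        nlinarith
      · push Not at h3
        nlinarith
    have h1 : ev (fun y => iv Y (Iv n none) y *
      (Y y + (mK + η - cm Y (Vv n v0 none))) ^ 2) ≤ 4 * T := by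
      rw [hTd, ← ev_smul]
      refine ev_mono fun y => ?_
      change iv Y (Int0 n)ᶜ y * _ ≤ _
      by_cases hy : Y y ∈ (Int0 n)ᶜ
      · have h2 : iv Y (Int0 n)ᶜ y = 1 := ind_mem hy
        rw [h2, Set.indicator_of_mem hy, one_mul]
        have h3 : mK + η - cm Y (Vv n v0 none) = η := by
          change mK + η - mK = η
          ring
        rw [h3]
        have h4 := hout _ hy
        have h5 : η ^ 2 ≤ 1 := by
          rw [← sq_abs]
          have : |η| ≤ 1 := by linarith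
          exact pow_le_one₀ (abs_nonneg _) this
        have h6 : 0 ≤ (Y y - η) ^ 2 := sq_nonneg _
        have h7 : (Y y + η) ^ 2 = 2 * Y y ^ 2 + 2 * η ^ 2 - (Y y - η) ^ 2 := by ring
        rw [h7]
        linarith
      · have h2 : iv Y (Int0 n)ᶜ y = 0 := ind_notMem hy
        rw [h2, Set.indicator_of_notMem hy]; simp
    have h2 : pr Y (Iv n none) * Vt ≤ T := by
      have h3 : pr Y (Iv n none) ≤ T := by
        rw [hTd]
        refine ev_mono fun y => ?_
        change ind (Int0 n)ᶜ (Y y) ≤ _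
        by_cases hy : Y y ∈ (Int0 n)ᶜ
        · rw [ind_mem hy, Set.indicator_of_mem hy]
          exact hout _ hy
        · rw [ind_notMem hy, Set.indicator_of_notMem hy]
      have h4 : 0 ≤ pr Y (Iv n none) := ev_nonneg (iv_nonneg Y _)
      have h5 : Vt ≤ 1 := by
        refine hVt1.trans ?_
        have : x ^ 18 ≤ 1 := pow_le_one₀ ht0.le (by linarith)
        linarith
      calc pr Y (Iv n none) * Vt ≤ pr Y (Iv n none) * 1 := mul_le_mul_of_nonneg_left h5 h4
        _ ≤ T := by rw [mul_one]; exact h3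
    have h6 : C / (n : ℝ) ^ 12 = C * x ^ 12 := by
      rw [hx]; unfold tau; field_simp
    rw [h6] at hT
    have h7 : 0 < pr Y (Vv n v0 none) := hpK0
    rw [div_le_iff₀ h7]
    calc _ ≤ 4 * T + T := add_le_add h1 h2
      _ ≤ 5 * (C * x ^ 12) := by linarith
      _ = 500 * C * x ^ 3 * (x ^ 9 / 100) := by ring
      _ ≤ 500 * C * x ^ 3 * pr Y (Vv n v0 none) :=
          mul_le_mul_of_nonneg_left hpK (by positivity)
  have hsum : ∑ a, (ev (fun y => iv Y (Iv n a) y *
      (Y y + (mK + η - cm Y (Vv n v0 a))) ^ 2) + pr Y (Iv n a) * Vt) /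
        pr Y (Vv n v0 a) ≤ (410 + 500 * C) * x ^ 3 := by
    rw [Fintype.sum_option]
    have h1 : ∑ b : Fin (KK n), (ev (fun y => iv Y (Iv n (some b)) y *
      (Y y + (mK + η - cm Y (Vv n v0 (some b)))) ^ 2) + pr Y (Iv n (some b)) * Vt) /
        pr Y (Vv n v0 (some b)) ≤ 410 * x ^ 3 := by
      calc _ ≤ ∑ _b : Fin (KK n), 205 * x ^ 13 := Finset.sum_le_sum fun b _ => hint b
        _ = 410 * x ^ 3 := by
          rw [Finset.sum_const, Finset.card_univ, Fintype.card_fin, nsmul_eq_mul]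
          have : (KK n : ℝ) * (205 * x ^ 13) = ((KK n : ℝ) * x ^ 10) * (205 * x ^ 3) := by ring
          rw [this, hKx]; ring
    linarith
  have hprodpos : 0 ≤ ∏ b, pr Y (Vv n v0 b) := (Finset.prod_pos fun b _ => hpall b).le
  calc hh n / 100 * δ ^ (KK n) * (x ^ 2 / 2) = (x ^ 9 / 100 * δ ^ (KK n)) * (x ^ 2 / 2) := by
        rw [hhx]
    _ ≤ (∏ b, pr Y (Vv n v0 b)) * (x ^ 2 / 2) :=
        mul_le_mul_of_nonneg_right hP (by positivity)
    _ ≤ _ := by
        refine mul_le_mul_of_nonneg_left ?_ hprodpos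
        have h1 : x ^ 2 ≤ (mK + η) ^ 2 := pow_le_pow_left₀ ht0.le hM1 2
        have h2 : (410 + 500 * C) * x ^ 3 ≤ x ^ 2 / 2 := by
          have : (410 + 500 * C) * x ^ 3 = ((820 + 1000 * C) * x) * (x ^ 2 / 2) := by ring
          rw [this]
          have h3 : 0 ≤ x ^ 2 / 2 := by positivity
          nlinarith
        linarith

end Main

/-- MODULE 3 -/
theorem gainStmt : GainStmt := by
  intro C hC
  obtain ⟨n, hn⟩ := exists_nat_ge (820 + 1000 * C)
  have hn2 : (2 : ℝ) ≤ n := by linarith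
  have hn2' : 2 ≤ n := by exact_mod_cast hn2
  refine ⟨n, hn2', fun δ hδ => ?_⟩
  have hh0 := hh_pos_g hn2'
  have ht0 := tau_pos_g hn2'
  refine ⟨hh n / 100 * δ ^ (KK n) * (tau n ^ 2 / 2), by positivity,
    Option (Option (Fin (KK n))), inferInstance, inferInstance, inferInstance, ?_⟩
  intro ι _ _ Y hY
  refine gain_conc hn2' hδ hC ?_ Y hY
  have h1 := n_tau hn2'
  calc (820 + 1000 * C) * tau n ≤ n * tau n := mul_le_mul_of_nonneg_right hn ht0.le
    _ = 1 := h1

end Crest.Agent.R063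

end
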