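import Crest.Agent.R063.KDefs

/-!
# R063: assembly of the four modules
-/

set_option autoImplicit false
set_option linter.unusedSectionVars false

open Finset

noncomputable section

namespace Crest.Agent.R063

section basics
variable {ι : Type} [Fintype ι] [DecidableEq ι]

lemma ev_mono' {F G : (ι → Bool) → ℝ} (h : ∀ x, F x ≤ G x) : ev F ≤ ev G := by
  unfold ev
  gcongr with x
  exact h x

private lemma ev_SS : ev (fun x : ι → Bool => SS x) = 0 := by
  unfold SS
  rw [ev_sum]
  refine Finset.sum_eq_zero fun i _ => ?_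
  have : (fun x : ι → Bool => sg (x i)) = chi {i} := by ext x; simp [chi]
  rw [this, ev_chi]
  simp

lemma Gad.mean {Z : (ι → Bool) → ℝ} {c : ℕ} (h : Gad Z c) : ev Z = 0 := by
  have := h.mart (fun _ => 1)
  simp only [mul_one] at this
  rw [← ev_SS (ι := ι)]
  exact this.symm

end basics

lemma HasRate.mono {κ κ' : ℝ} (h : HasRate κ) (hk : κ' ≤ κ) : HasRate κ' := by
  obtain ⟨ι, i1, i2, Z, c, hc, hG, hJ⟩ := h
  exact ⟨ι, i1, i2, Z, c, hc, hG, le_trans (by gcongr) hJ⟩

lemma hasRate_one : HasRate 1 := by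
  refine ⟨Unit, inferInstance, inferInstance, fun x => sg (x ()), 1, one_pos, ⟨?_, ?_⟩, ?_⟩
  · intro g
    refine deg_of_coef_eq_zero fun S hS => ?_
    have : S.card ≤ 1 := by
      have := Finset.card_le_univ S
      simpa using this
    omega
  · intro g
    unfold SS
    simp
  · have : (fun x : Unit → Bool => sg (x ()) ^ 2) = fun _ => 1 := by
      ext x; rw [sq, sg_mul_self]
    rw [this, ev_const]
    simp

section step

lemma Junta.scale {α : Type} [Fintype α] {A : Set (α → ℝ)} (hA : Junta A) (r : ℝ) :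
    Junta {z : α → ℝ | (fun a => z a / r) ∈ A} := by
  obtain ⟨F, h1, h2⟩ := hA
  refine ⟨fun a z => F a (fun b => z b / r), ?_, ?_⟩
  · intro a z z' hz
    apply h1
    intro b hb
    rw [hz b hb]
  · intro z
    rw [← h2]
    rfl

/-- one improvement step with uniform factor -/
theorem improve (hB : BlockStmt) (hE : EventStmt) (hG : GainStmt) (hN : NiceStmt) :
    ∃ ρ : ℝ, 0 < ρ ∧ ∀ κ : ℝ, 0 < κ → HasRate κ → HasRate (κ * (1 + ρ)) := by
  obtain ⟨C, hC, hN⟩ := hN
  obtain ⟨n, hn, hG⟩ := hG C hC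
  obtain ⟨δ, hδ, hN⟩ := hN n hn
  obtain ⟨ε, hε, α, i1, i2, i3, hG⟩ := hG δ hδ
  have hα : (0 : ℝ) < Fintype.card α := by exact_mod_cast Fintype.card_pos
  refine ⟨ε / Fintype.card α, by positivity, fun κ hκ hR => ?_⟩
  obtain ⟨ι, j1, j2, Z, c, hc, hZ, hJ⟩ := hR
  have hc' : (0 : ℝ) < c := by exact_mod_cast hc
  set J := ev (fun y => Z y ^ 2) with hJdef
  have hJ0 : 0 < J := lt_of_lt_of_le (by positivity) hJ
  obtain ⟨m, hm, hY⟩ := hN ι Z hZ.mean hJ0
  have hm' : (0 : ℝ) < m := by exact_mod_cast hm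
  obtain ⟨hZ1, hJ1⟩ := hB ι (Fin m) Z c hZ
  rw [Fintype.card_fin] at hZ1 hJ1
  set r : ℝ := Real.sqrt (m * J) with hr
  have hr0 : 0 < r := Real.sqrt_pos.mpr (by positivity)
  have hr2 : r ^ 2 = m * J := Real.sq_sqrt (by positivity)
  obtain ⟨A, hA, hgain⟩ := hG _ _ hY
  obtain ⟨ι', k1, k2, Z', hZ', hJ'⟩ := hE (Σ _ : Fin m, ι) α (fun x => zsum Z x) (m * c) hZ1
    {z : α → ℝ | (fun a => z a / r) ∈ A} (hA.scale r)
  refine ⟨ι', k1, k2, Z', Fintype.card α * (m * c), ?_, hZ', ?_⟩
  · have := Fintype.card_pos (α := α)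
    positivity
  · refine le_trans ?_ hJ'
    rw [hJ1]
    have key : (fun x : (Σ _ : α, (Σ _ : Fin m, ι)) → Bool =>
        ind {z : α → ℝ | (fun a => z a / r) ∈ A} (zv (fun x => zsum Z x) x) *
          ((m : ℝ) * J - zsum (fun x => zsum Z x) x ^ 2))
        = fun x => (m * J) * (ind A (zv (fun x => zsum Z x / r) x) *
          (1 - zsum (fun x => zsum Z x / r) x ^ 2)) := by
      ext x
      have e1 : ind {z : α → ℝ | (fun a => z a / r) ∈ A} (zv (fun x => zsum Z x) x)
          = ind A (zv (fun x => zsum Z x / r) x) := rfl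
      have e2 : zsum (fun x : (Σ _ : Fin m, ι) → Bool => zsum Z x / r) x
          = zsum (fun x => zsum Z x) x / r := by
        simp only [zsum, zv]
        rw [Finset.sum_div]
      rw [e1, e2, div_pow, hr2]
      have : (m : ℝ) * J ≠ 0 := by positivity
      field_simp
    rw [key, ev_smul]
    push_cast
    have h1 : (m * J) * ε ≤ (m * J) * ev (fun x : (Σ _ : α, (Σ _ : Fin m, ι)) → Bool =>
        ind A (zv (fun x => zsum Z x / r) x) *
          (1 - zsum (fun x => zsum Z x / r) x ^ 2)) := by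
      gcongr
    have h2 : κ * (1 + ε / Fintype.card α) * (Fintype.card α * (m * c))
        = (κ * c) * (m * (Fintype.card α + ε)) := by
      field_simp
    rw [h2]
    calc (κ * c) * (m * (Fintype.card α + ε)) ≤ J * (m * (Fintype.card α + ε)) := by gcongr
      _ = Fintype.card α * (m * J) + (m * J) * ε := by ring
      _ ≤ _ := by linarith

theorem hasRate_all (hB : BlockStmt) (hE : EventStmt) (hG : GainStmt) (hN : NiceStmt) (κ : ℝ) :
    HasRate κ := by
  obtain ⟨ρ, hρ, h⟩ := improve hB hE hG hN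
  have hk : ∀ k : ℕ, HasRate ((1 + ρ) ^ k) := by
    intro k
    induction k with
    | zero => simpa using hasRate_one
    | succ k ih => rw [pow_succ]; exact h _ (by positivity) ih
  obtain ⟨k, hk'⟩ := pow_unbounded_of_one_lt κ (by linarith : 1 < 1 + ρ)
  exact (hk k).mono hk'.le

end step

/-- the final step -/
theorem ach_all (hB : BlockStmt) (hE : EventStmt) (hG : GainStmt) (hN : NiceStmt) (C : ℝ)
    (hC : 0 < C) : ∃ (μ : ℝ) (D : ℕ) (s : ℝ), Ach μ D s ∧ C * Real.sqrt D < s := by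
  have hR := hasRate_all hB hE hG hN ((51200 * C + 1) ^ 2)
  obtain ⟨C1, hC1, hN⟩ := hN
  obtain ⟨δ, hδ, hN⟩ := hN 2 le_rfl
  obtain ⟨ι, j1, j2, Z, c, hc, hZ, hJ⟩ := hR
  have hc' : (0 : ℝ) < c := by exact_mod_cast hc
  set J := ev (fun y => Z y ^ 2) with hJdef
  have hJ0 : 0 < J := lt_of_lt_of_le (by positivity) hJ
  obtain ⟨m, hm, hY⟩ := hN ι Z hZ.mean hJ0
  have hm' : (0 : ℝ) < m := by exact_mod_cast hm
  obtain ⟨hZ1, hJ1⟩ := hB ι (Fin m) Z c hZ
  rw [Fintype.card_fin] at hZ1 hJ1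
  set r : ℝ := Real.sqrt (m * J) with hr
  have hr0 : 0 < r := Real.sqrt_pos.mpr (by positivity)
  set f : ((Σ _ : Fin m, ι) → Bool) → Bool := fun x => decide (0 ≤ zsum Z x) with hf
  have hsgf : sgf f = fun x => (fun t : ℝ => if 0 ≤ t then (1 : ℝ) else -1) (zsum Z x) := by
    ext x
    simp only [sgf, hf, sg]
    by_cases h : 0 ≤ zsum Z x <;> simp [h]
  refine ⟨ev (sgf f), m * c, lin (sgf f), ach_of_fintype f ?_ rfl rfl, ?_⟩
  · rw [hsgf]; exact hZ1.deg (fun t : ℝ => if 0 ≤ t then (1 : ℝ) else -1)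
  · -- lin = E[SS * f] = E |zsum Z|
    have e1 : lin (sgf f) = ev (fun x : (Σ _ : Fin m, ι) → Bool => |zsum Z x|) := by
      unfold lin
      simp_rw [coef_singleton]
      rw [← ev_sum]
      have : (fun x : (Σ _ : Fin m, ι) → Bool => ∑ i, sgf f x * sg (x i))
          = fun x => SS x * (fun t : ℝ => if 0 ≤ t then (1 : ℝ) else -1) (zsum Z x) := by
        ext x
        rw [hsgf, SS, ← Finset.mul_sum, mul_comm]
      rw [this]
      refine (hZ1.mart (fun t : ℝ => if 0 ≤ t then (1 : ℝ) else -1)).trans ?_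
      congr 1
      ext x
      by_cases h : 0 ≤ zsum Z x
      · simp [h, abs_of_nonneg h]
      · simp [h, abs_of_neg (not_le.mp h)]
    rw [e1]
    have hG := hY.G_le 1024 (by norm_num [hh])
    have hh2 : hh 2 / 100 = 1 / 51200 := by norm_num [hh]
    rw [hh2] at hG
    have e2 : r * pr (fun x : (Σ _ : Fin m, ι) → Bool => zsum Z x / r) (Gc 2 1024)
        ≤ ev (fun x : (Σ _ : Fin m, ι) → Bool => |zsum Z x|) := by
      unfold pr
      rw [← ev_smul]
      refine ev_mono' fun x => ?_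
      unfold ind
      by_cases h : zsum Z x / r ∈ Gc 2 1024
      · rw [Set.indicator_of_mem h]
        have h1 : (1 : ℝ) ≤ zsum Z x / r := by
          have := h.1
          norm_num [hh] at this
          exact this
        rw [le_div_iff₀ hr0] at h1
        calc r * 1 = 1 * r := by ring
          _ ≤ zsum Z x := h1
          _ ≤ _ := le_abs_self _
      · rw [Set.indicator_of_notMem h]
        simp
    refine lt_of_lt_of_le ?_ e2
    refine lt_of_lt_of_le ?_ (mul_le_mul_of_nonneg_left hG hr0.le)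
    push_cast
    have h3 : (51200 * C + 1) * Real.sqrt (m * c) ≤ r := by
      rw [hr]
      apply Real.le_sqrt_of_sq_le
      rw [mul_pow, Real.sq_sqrt (by positivity)]
      calc (51200 * C + 1) ^ 2 * (m * c) = m * ((51200 * C + 1) ^ 2 * c) := by ring
        _ ≤ m * J := by gcongr
    have h4 : 0 < Real.sqrt (m * c) := Real.sqrt_pos.mpr (by positivity)
    have h5 : 51200 * C * Real.sqrt (m * c) < r := by nlinarith
    linarith

end Crest.Agent.R063

end
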