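import Crest.Agent.R063.KDefs
import Crest.Agent.R063.CLT

/-!
# R063 MODULE 4: normalised sums of a gadget are `Nice` (central limit theorem + Gaussian estimates)
-/

set_option autoImplicit false
set_option linter.unusedSectionVars false

open MeasureTheory ProbabilityTheory Filter Topology

noncomputable section

namespace Crest.Agent.R063

namespace NiceAux

abbrev γ : Measure ℝ := gaussianReal 0 1

/-- the density -/
def ph (x : ℝ) : ℝ := gaussianPDFReal 0 1 x

lemma ph_eq (x : ℝ) : ph x = (Real.sqrt (2 * Real.pi))⁻¹ * Real.exp (-(x ^ 2) / 2) := by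
  simp [ph, gaussianPDFReal]

lemma ph_pos (x : ℝ) : 0 < ph x := gaussianPDFReal_pos 0 1 x one_ne_zero

lemma gamma_real (s : Set ℝ) : γ.real s = ∫ x in s, ph x := by
  rw [Measure.real, gaussianReal_apply_eq_integral 0 one_ne_zero s, ENNReal.toReal_ofReal]
  · rfl
  · exact setIntegral_nonneg_of_ae (by
      filter_upwards with x using (gaussianPDFReal_nonneg 0 1 x))

lemma integrable_ph : Integrable ph := integrable_gaussianPDFReal 0 1

lemma gamma_Ico_le {a b M : ℝ} (hab : a ≤ b) (h : ∀ x ∈ Set.Ico a b, ph x ≤ M) :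
    γ.real (Set.Ico a b) ≤ (b - a) * M := by
  rw [gamma_real]
  calc ∫ x in Set.Ico a b, ph x ≤ ∫ x in Set.Ico a b, M := by
        refine setIntegral_mono_on integrable_ph.integrableOn ?_ measurableSet_Ico h
        simp
    _ = (b - a) * M := by simp [hab]

lemma le_gamma_Ico {a b M : ℝ} (hab : a ≤ b) (h : ∀ x ∈ Set.Ico a b, M ≤ ph x) :
    (b - a) * M ≤ γ.real (Set.Ico a b) := by
  rw [gamma_real]
  calc (b - a) * M = ∫ x in Set.Ico a b, M := by simp [hab]
    _ ≤ ∫ x in Set.Ico a b, ph x := by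
        refine setIntegral_mono_on ?_ integrable_ph.integrableOn measurableSet_Ico h
        simp

/-- comparison of two intervals -/
lemma gamma_Ico_compare {a b c d K : ℝ} (hab : a ≤ b) (hcd : c ≤ d)
    (h : ∀ x ∈ Set.Ico a b, ∀ y ∈ Set.Ico c d, ph x ≤ K * ph y) :
    (d - c) * γ.real (Set.Ico a b) ≤ (b - a) * K * γ.real (Set.Ico c d) := by
  have h1 : ∀ y ∈ Set.Ico c d, γ.real (Set.Ico a b) ≤ (b - a) * K * ph y := by
    intro y hy
    have := gamma_Ico_le hab (fun x hx => h x hx y hy)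
    linarith
  rw [gamma_real (Set.Ico c d)]
  calc (d - c) * γ.real (Set.Ico a b) = ∫ y in Set.Ico c d, γ.real (Set.Ico a b) := by simp [hcd]
    _ ≤ ∫ y in Set.Ico c d, (b - a) * K * ph y := by
        refine setIntegral_mono_on ?_ (integrable_ph.integrableOn.const_mul _) measurableSet_Ico h1
        simp
    _ = (b - a) * K * ∫ y in Set.Ico c d, ph y := by
        rw [integral_const_mul]

lemma ph_compare {x y E : ℝ} (h : y ^ 2 - x ^ 2 ≤ 2 * E) : ph x ≤ Real.exp E * ph y := by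
  rw [ph_eq, ph_eq]
  have h1 : Real.exp (-(x ^ 2) / 2) ≤ Real.exp E * Real.exp (-(y ^ 2) / 2) := by
    rw [← Real.exp_add]
    apply Real.exp_le_exp.2
    linarith
  have h2 : 0 ≤ (Real.sqrt (2 * Real.pi))⁻¹ := by positivity
  calc (Real.sqrt (2 * Real.pi))⁻¹ * Real.exp (-(x ^ 2) / 2)
      ≤ (Real.sqrt (2 * Real.pi))⁻¹ * (Real.exp E * Real.exp (-(y ^ 2) / 2)) := by gcongr
    _ = _ := by ring

lemma exp_three_le : Real.exp 3 ≤ 21 := by
  have h : Real.exp 3 = Real.exp 1 ^ 3 := by rw [← Real.exp_nat_mul]; norm_num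
  rw [h]
  calc Real.exp 1 ^ 3 ≤ (2.7182818286 : ℝ) ^ 3 := by
        gcongr; exact Real.exp_one_lt_d9.le
    _ ≤ 21 := by norm_num

/-- lower bound of the density on `|x| ≤ L` -/
lemma ph_lower {x L : ℝ} (h : |x| ≤ L) : ph L ≤ ph x := by
  rw [ph_eq, ph_eq]
  have h1 : x ^ 2 ≤ L ^ 2 := by
    rw [← sq_abs x]; exact pow_le_pow_left₀ (abs_nonneg x) h 2
  gcongr

lemma ph_sqrt45 {x : ℝ} (h : x ^ 2 ≤ 9 / 2) : (3 / 100 : ℝ) ≤ ph x := by
  rw [ph_eq]
  have h1 : Real.sqrt (2 * Real.pi) ≤ 3 := by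
    rw [Real.sqrt_le_left (by norm_num)]
    nlinarith [Real.pi_lt_four]
  have h1' : 0 < Real.sqrt (2 * Real.pi) := by positivity
  have h2 : (1 / 10 : ℝ) ≤ Real.exp (-(x ^ 2) / 2) := by
    have h3 : Real.exp (-(9 / 4 : ℝ)) ≤ Real.exp (-(x ^ 2) / 2) := by
      apply Real.exp_le_exp.2; linarith
    have h4 : Real.exp (9 / 4 : ℝ) ≤ 10 := by
      have h5 : Real.exp (9 / 4 : ℝ) ^ 4 ≤ 10 ^ 4 := by
        rw [← Real.exp_nat_mul]
        have : ((4 : ℕ) : ℝ) * (9 / 4) = ((9 : ℕ) : ℝ) * 1 := by norm_num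
        rw [this, Real.exp_nat_mul]
        calc Real.exp 1 ^ 9 ≤ (2.7182818286 : ℝ) ^ 9 := by
              gcongr; exact Real.exp_one_lt_d9.le
          _ ≤ 10 ^ 4 := by norm_num
      exact le_of_pow_le_pow_left₀ (by norm_num) (by norm_num) h5
    have h6 : (1 / 10 : ℝ) ≤ Real.exp (-(9 / 4 : ℝ)) := by
      rw [Real.exp_neg, one_div]
      exact inv_anti₀ (Real.exp_pos _) h4
    linarith
  have h7 : (1 / 3 : ℝ) ≤ (Real.sqrt (2 * Real.pi))⁻¹ := by
    rw [one_div]; exact inv_anti₀ h1' h1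
  calc (3 / 100 : ℝ) ≤ (1 / 3) * (1 / 10) := by norm_num
    _ ≤ (Real.sqrt (2 * Real.pi))⁻¹ * Real.exp (-(x ^ 2) / 2) := by gcongr

section params

variable {n : ℕ}

lemma n_pos (hn : 2 ≤ n) : (2 : ℝ) ≤ n := by exact_mod_cast hn

lemma hh_pos (hn : 2 ≤ n) : 0 < hh n := by have := n_pos hn; unfold hh; positivity
lemma hp_pos (hn : 2 ≤ n) : 0 < hp n := by have := n_pos hn; unfold hp; positivity
lemma tau_pos (hn : 2 ≤ n) : 0 < tau n := by have := n_pos hn; unfold tau; positivity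

lemma hh_le (hn : 2 ≤ n) : hh n ≤ 1 / n := by
  have h := n_pos hn
  unfold hh
  apply one_div_le_one_div_of_le (by linarith)
  calc (n : ℝ) = n ^ 1 := by ring
    _ ≤ n ^ 9 := pow_le_pow_right₀ (by linarith) (by norm_num)

lemma hp_le (hn : 2 ≤ n) : hp n ≤ 1 / n := by
  have h := n_pos hn
  unfold hp
  apply one_div_le_one_div_of_le (by linarith)
  calc (n : ℝ) = n ^ 1 := by ring
    _ ≤ n ^ 14 := pow_le_pow_right₀ (by linarith) (by norm_num)

lemma abs_cc_le (hn : 2 ≤ n) {b : ℕ} (hb : b < KK n) : |cc n b| ≤ n := by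
  have h := n_pos hn
  have hb' : (b : ℝ) + 1 ≤ 2 * (n : ℝ) ^ 10 := by
    unfold KK at hb
    exact_mod_cast hb
  have hp := hh_pos hn
  have e : (2 * (n : ℝ) ^ 10) * hh n = 2 * n := by
    unfold hh; field_simp
  have h1 : ((b : ℝ) + 1 / 2) * hh n ≤ 2 * n := by
    rw [← e]; gcongr; linarith
  have h2 : 0 ≤ ((b : ℝ) + 1 / 2) * hh n := by positivity
  unfold cc
  rw [abs_le]
  constructor <;> linarith

lemma V_lower (hn : 2 ≤ n) {b : ℕ} (hb : b < KK n) :
    hp n * ph (n + 1) ≤ γ.real (Vc n b) := by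
  have hc := abs_cc_le hn hb
  have hpp := hp_pos hn
  have hpl := hp_le hn
  have h2 := n_pos hn
  have h1n : (1 : ℝ) / n ≤ 1 / 2 := one_div_le_one_div_of_le (by norm_num) h2
  have h := le_gamma_Ico (a := cc n b - hp n / 2) (b := cc n b + hp n / 2) (M := ph (n + 1))
    (by linarith) (by
      rintro x ⟨hx1, hx2⟩
      apply ph_lower
      rw [abs_le] at hc ⊢
      constructor <;> linarith)
  have e : cc n b + hp n / 2 - (cc n b - hp n / 2) = hp n := by ring
  rw [e] at h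
  exact h

lemma V_pos' (hn : 2 ≤ n) {b : ℕ} (hb : b < KK n) : 0 < γ.real (Vc n b) :=
  lt_of_lt_of_le (mul_pos (hp_pos hn) (ph_pos _)) (V_lower hn hb)

lemma I_le' (hn : 2 ≤ n) {b : ℕ} (hb : b < KK n) :
    γ.real (Ic n b) ≤ 21 * (n : ℝ) ^ 5 * γ.real (Vc n b) := by
  have hc := abs_cc_le hn hb
  have hpp := hp_pos hn
  have hpl := hp_le hn
  have hhp := hh_pos hn
  have hhl := hh_le hn
  have h2 := n_pos hn
  have htp := tau_pos hn
  have h1n : (1 : ℝ) / n ≤ 1 / 2 := one_div_le_one_div_of_le (by norm_num) h2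
  have ht : tau n = 1 / n := rfl
  have h := gamma_Ico_compare (a := cc n b - tau n - hh n / 2) (b := cc n b - tau n + hh n / 2)
    (c := cc n b - hp n / 2) (d := cc n b + hp n / 2) (K := 21) (by linarith) (by linarith) (by
      rintro x ⟨hx1, hx2⟩ y ⟨hy1, hy2⟩
      have h6 : y ^ 2 - x ^ 2 ≤ 2 * 3 := by
        have e1 : y ^ 2 - x ^ 2 = (y - x) * (y + x) := by ring
        have e2 : |y - x| ≤ 2 / n := by
          have : (2 : ℝ) / n = 1 / n + 1 / n := by ring
          rw [this, abs_le]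
          constructor <;> linarith
        have e3 : |y + x| ≤ 3 * n := by
          rw [abs_le] at hc ⊢
          have : (1 : ℝ) / n ≤ n / 4 := by
            rw [div_le_div_iff₀ (by linarith) (by norm_num)]
            nlinarith
          constructor <;> linarith
        calc y ^ 2 - x ^ 2 = (y - x) * (y + x) := e1
          _ ≤ |(y - x) * (y + x)| := le_abs_self _
          _ = |y - x| * |y + x| := abs_mul _ _
          _ ≤ (2 / n) * (3 * n) := by gcongr
          _ = 2 * 3 := by field_simp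
      calc ph x ≤ Real.exp 3 * ph y := ph_compare h6
        _ ≤ 21 * ph y := by
          have := (ph_pos y).le
          gcongr
          exact exp_three_le)
  have e1 : cc n b + hp n / 2 - (cc n b - hp n / 2) = hp n := by ring
  have e2 : cc n b - tau n + hh n / 2 - (cc n b - tau n - hh n / 2) = hh n := by ring
  rw [e1, e2] at h
  have e3 : hh n = (n : ℝ) ^ 5 * hp n := by
    unfold hh hp; field_simp
  have h' : hp n * γ.real (Ic n b) ≤ hp n * (21 * (n : ℝ) ^ 5 * γ.real (Vc n b)) := by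
    calc hp n * γ.real (Ic n b) ≤ hh n * 21 * γ.real (Vc n b) := h
      _ = _ := by rw [e3]; ring
  exact le_of_mul_le_mul_left h' hpp

lemma G_low (hn : 2 ≤ n) {i : ℤ} (hi : |(i : ℝ) * (hh n / 2)| ≤ 2) :
    hh n / 2 * (3 / 100) ≤ γ.real (Gc n i) := by
  have hhp := hh_pos hn
  have h2 := n_pos hn
  have hh512 : hh n ≤ 1 / 512 := by
    unfold hh
    apply one_div_le_one_div_of_le (by norm_num)
    calc (512 : ℝ) = 2 ^ 9 := by norm_num
      _ ≤ (n : ℝ) ^ 9 := pow_le_pow_left₀ (by norm_num) h2 9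
  have h := le_gamma_Ico (a := (i : ℝ) * (hh n / 2)) (b := ((i : ℝ) + 1) * (hh n / 2))
    (M := 3 / 100) (by nlinarith) (by
      rintro x ⟨hx1, hx2⟩
      apply ph_sqrt45
      have h3 : |x| ≤ 2 + 1 / 1024 := by
        rw [abs_le] at hi ⊢
        constructor <;> nlinarith
      calc x ^ 2 = |x| ^ 2 := (sq_abs x).symm
        _ ≤ (2 + 1 / 1024) ^ 2 := pow_le_pow_left₀ (abs_nonneg x) h3 2
        _ ≤ 9 / 2 := by norm_num)
  have e : ((i : ℝ) + 1) * (hh n / 2) - (i : ℝ) * (hh n / 2) = hh n / 2 := by ring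
  rw [e] at h
  exact h

end params

section tail

lemma integrable_pow14 : Integrable (fun x : ℝ => x ^ 14) γ := by
  have h := (memLp_id_gaussianReal (μ := 0) (v := 1) 14).integrable_norm_pow (by norm_num)
  have h2 : (fun x : ℝ => x ^ 14) = fun x => ‖id x‖ ^ 14 := by
    funext x
    rw [id, Real.norm_eq_abs, Even.pow_abs (by decide)]
  rw [h2]; exact h

/-- the tail constant -/
def CT : ℝ := 4 ^ 12 * (∫ x, x ^ 14 ∂γ) + 1

lemma CT_pos : 0 < CT := by
  have : 0 ≤ ∫ x, x ^ 14 ∂γ := integral_nonneg fun x => Even.pow_nonneg (by decide) x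
  unfold CT; positivity

lemma tail_gauss {n : ℕ} (hn : 2 ≤ n) :
    (∫ x in {x : ℝ | ((n : ℝ) - 1 / 2) - 1 ≤ |x|}, x ^ 2 ∂γ) ≤
      4 ^ 12 * (∫ x, x ^ 14 ∂γ) / (n : ℝ) ^ 12 := by
  have h2 := n_pos hn
  have hms : MeasurableSet {x : ℝ | ((n : ℝ) - 1 / 2) - 1 ≤ |x|} := by measurability
  have hi : Integrable (fun x : ℝ => 4 ^ 12 / (n : ℝ) ^ 12 * x ^ 14) γ := integrable_pow14.const_mul _
  calc (∫ x in {x : ℝ | ((n : ℝ) - 1 / 2) - 1 ≤ |x|}, x ^ 2 ∂γ)
      ≤ ∫ x in {x : ℝ | ((n : ℝ) - 1 / 2) - 1 ≤ |x|}, 4 ^ 12 / (n : ℝ) ^ 12 * x ^ 14 ∂γ := by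
        refine setIntegral_mono_on CLT.integrable_sq_gaussian.integrableOn hi.integrableOn hms ?_
        intro x hx
        have hx' : (n : ℝ) - 3 / 2 ≤ |x| := by
          have := hx.out; linarith
        have h3 : (n : ℝ) ≤ 4 * |x| := by linarith
        have h4 : (n : ℝ) ^ 12 ≤ (4 * |x|) ^ 12 := pow_le_pow_left₀ (by linarith) h3 12
        have h5 : (|x|) ^ 12 = x ^ 12 := Even.pow_abs (by decide) x
        rw [div_mul_eq_mul_div, le_div_iff₀ (by positivity)]
        calc x ^ 2 * (n : ℝ) ^ 12 ≤ x ^ 2 * (4 * |x|) ^ 12 := by gcongr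
          _ = 4 ^ 12 * x ^ 14 := by rw [mul_pow, h5]; ring
    _ ≤ ∫ x, 4 ^ 12 / (n : ℝ) ^ 12 * x ^ 14 ∂γ := by
        refine setIntegral_le_integral hi ?_
        filter_upwards with x
        have : 0 ≤ x ^ 14 := Even.pow_nonneg (by decide) x
        positivity
    _ = _ := by rw [integral_const_mul]; ring

end tail

section transfer

variable {ι : Type} [Fintype ι] [DecidableEq ι]

lemma ev_eq_avg (F : (ι → Bool) → ℝ) : ev F = CLT.avg F := by
  unfold ev CLT.avg
  congr 1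
  simp

lemma ev_sigma {m : ℕ} (F : (Fin m → ι → Bool) → ℝ) :
    ev (fun x : (Σ _ : Fin m, ι) → Bool => F (fun a k => x ⟨a, k⟩)) = CLT.avg F := by
  rw [ev_eq_avg]
  unfold CLT.avg
  congr 1
  · exact Fintype.sum_equiv (Equiv.piCurry (fun (_ : Fin m) (_ : ι) => Bool)) _ _ (fun x => rfl)
  · rw [Fintype.card_congr (Equiv.piCurry (fun (_ : Fin m) (_ : ι) => Bool))]

lemma zsum_eq {m : ℕ} (Z : (ι → Bool) → ℝ) (J : ℝ) (x : (Σ _ : Fin m, ι) → Bool) :
    zsum Z x / Real.sqrt (m * J) = CLT.nsum Z J m (fun a k => x ⟨a, k⟩) := rfl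

end transfer

end NiceAux

open NiceAux

theorem niceStmt : NiceStmt := by
  refine ⟨CT, CT_pos, fun n hn => ?_⟩
  have hn2 := n_pos hn
  have hLp : 0 < hp n * ph (n + 1) := mul_pos (hp_pos hn) (ph_pos _)
  refine ⟨hp n * ph (n + 1) / 2, by positivity, fun ι _ _ Z hZ hJ => ?_⟩
  classical
  set J := ev (fun y => Z y ^ 2) with hJdef
  have h0 : CLT.avg Z = 0 := by rw [← ev_eq_avg]; exact hZ
  have h2 : CLT.avg (fun y => Z y ^ 2) = J := by rw [← ev_eq_avg]
  -- transfer of probabilities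
  have hpr : ∀ (m : ℕ) (s : Set ℝ), pr (fun x : (Σ _ : Fin m, ι) → Bool =>
      zsum Z x / Real.sqrt (m * J)) s =
        CLT.avg (fun w : Fin m → ι → Bool => if CLT.nsum Z J m w ∈ s then (1 : ℝ) else 0) := by
    intro m s
    rw [← ev_sigma]
    unfold pr
    congr 1
  have hIco : ∀ a b : ℝ, Tendsto (fun m : ℕ => pr (fun x : (Σ _ : Fin m, ι) → Bool =>
      zsum Z x / Real.sqrt (m * J)) (Set.Ico a b)) atTop (𝓝 (γ.real (Set.Ico a b))) := by
    intro a b
    simp_rw [hpr]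
    refine (CLT.tendsto_avg_Ico Z J hJ h0 h2 a b).congr fun m => ?_
    congr 1
    funext w
    simp only [Set.mem_Ico]
  -- eventually statements
  have hV : ∀ᶠ m : ℕ in atTop, ∀ b ∈ Finset.range (KK n), hp n * ph (n + 1) / 2 ≤
      pr (fun x : (Σ _ : Fin m, ι) → Bool => zsum Z x / Real.sqrt (m * J)) (Vc n b) := by
    rw [Filter.eventually_all_finset]
    intro b hb
    have hb' := Finset.mem_range.1 hb
    have hlow := V_lower hn hb'
    filter_upwards [(hIco (cc n b - hp n / 2) (cc n b + hp n / 2)).eventually_const_lt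
      (show hp n * ph (n + 1) / 2 < γ.real (Set.Ico (cc n b - hp n / 2) (cc n b + hp n / 2)) from
        lt_of_lt_of_le (by linarith) hlow)] with m hm
    exact hm.le
  have hI : ∀ᶠ m : ℕ in atTop, ∀ b ∈ Finset.range (KK n),
      pr (fun x : (Σ _ : Fin m, ι) → Bool => zsum Z x / Real.sqrt (m * J)) (Ic n b) ≤
      41 * (n : ℝ) ^ 5 *
        pr (fun x : (Σ _ : Fin m, ι) → Bool => zsum Z x / Real.sqrt (m * J)) (Vc n b) := by
    rw [Filter.eventually_all_finset]
    intro b hb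
    have hb' := Finset.mem_range.1 hb
    have hIle := I_le' hn hb'
    have hVp := V_pos' hn hb'
    have h1 := (hIco (cc n b - hp n / 2) (cc n b + hp n / 2)).const_mul (41 * (n : ℝ) ^ 5)
    have h3 := hIco (cc n b - tau n - hh n / 2) (cc n b - tau n + hh n / 2)
    have h4 : γ.real (Set.Ico (cc n b - tau n - hh n / 2) (cc n b - tau n + hh n / 2)) <
        41 * (n : ℝ) ^ 5 * γ.real (Set.Ico (cc n b - hp n / 2) (cc n b + hp n / 2)) := by
      have : 0 < (n : ℝ) ^ 5 * γ.real (Vc n b) := by positivity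
      calc _ ≤ 21 * (n : ℝ) ^ 5 * γ.real (Vc n b) := hIle
        _ < 41 * (n : ℝ) ^ 5 * γ.real (Vc n b) := by nlinarith
    filter_upwards [h3.eventually_lt h1 h4] with m hm
    exact hm.le
  have hG : ∀ᶠ m : ℕ in atTop, ∀ i ∈ {i : ℤ | |(i : ℝ) * (hh n / 2)| ≤ 2},
      hh n / 100 ≤
        pr (fun x : (Σ _ : Fin m, ι) → Bool => zsum Z x / Real.sqrt (m * J)) (Gc n i) := by
    have hfin : {i : ℤ | |(i : ℝ) * (hh n / 2)| ≤ 2}.Finite := by
      refine (Set.finite_Icc (-⌈4 / hh n⌉) ⌈4 / hh n⌉).subset ?_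
      intro i hi
      have hi' : |(i : ℝ) * (hh n / 2)| ≤ 2 := hi
      have hhp := hh_pos hn
      rw [abs_le] at hi'
      have h5 : (i : ℝ) ≤ 4 / hh n := by
        rw [le_div_iff₀ hhp]; linarith [hi'.2]
      have h6 : -(4 / hh n) ≤ (i : ℝ) := by
        rw [neg_le, ← sub_nonneg]
        have : 0 ≤ (4 + i * hh n) / hh n := div_nonneg (by linarith [hi'.1]) hhp.le
        have e : (4 + i * hh n) / hh n = 4 / hh n - -(i : ℝ) := by field_simp; ring
        rw [← e]; exact this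
      constructor
      · have h7 : (-(⌈4 / hh n⌉ : ℤ) : ℝ) ≤ (i : ℝ) := by
          have := Int.le_ceil (4 / hh n)
          linarith
        exact_mod_cast h7
      · have h7 : (i : ℝ) ≤ (⌈4 / hh n⌉ : ℤ) := h5.trans (Int.le_ceil _)
        exact_mod_cast h7
    rw [Filter.eventually_all_finite hfin]
    intro i hi
    have hlow := G_low hn hi
    have hhp := hh_pos hn
    filter_upwards [(hIco ((i : ℝ) * (hh n / 2)) (((i : ℝ) + 1) * (hh n / 2))).eventually_const_lt
      (show hh n / 100 < γ.real (Set.Ico ((i : ℝ) * (hh n / 2)) (((i : ℝ) + 1) * (hh n / 2))) from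
        lt_of_lt_of_le (by linarith) hlow)] with m hm
    exact hm.le
  have hT := CLT.eventually_tail Z J hJ h0 h2 ((n : ℝ) - 1 / 2) (by linarith)
    (1 / (n : ℝ) ^ 12) (by positivity)
  obtain ⟨m, hmV, hmI, hmG, hmT, hm0⟩ :=
    (hV.and (hI.and (hG.and (hT.and (eventually_gt_atTop 0))))).exists
  refine ⟨m, hm0, ?_, ?_, ?_, ?_, ?_, ?_⟩
  · exact (ev_sigma (fun w => CLT.nsum Z J m w)).trans (CLT.avg_nsum Z J h0 m)
  · exact (ev_sigma (fun w => CLT.nsum Z J m w ^ 2)).trans (CLT.avg_nsum_sq Z J hJ h0 h2 m hm0)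
  · intro b hb; exact hmV b (Finset.mem_range.2 hb)
  · intro b hb; exact hmI b (Finset.mem_range.2 hb)
  · intro i hi; exact hmG i hi
  · refine (ev_sigma (fun w => (Int0 n)ᶜ.indicator (fun t => t ^ 2) (CLT.nsum Z J m w))).le.trans ?_
    refine (CLT.avg_mono (g := fun w => if (n : ℝ) - 1 / 2 ≤ |CLT.nsum Z J m w| then
      CLT.nsum Z J m w ^ 2 else 0) ?_).trans (hmT.trans ?_)
    · intro w
      by_cases hw : CLT.nsum Z J m w ∈ Int0 n
      · rw [Set.indicator_of_notMem (by simpa using hw)]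
        split_ifs <;> positivity
      · rw [Set.indicator_of_mem (by simpa using hw)]
        have ht1 : tau n ≤ 1 / 2 := by
          unfold tau; exact one_div_le_one_div_of_le (by norm_num) hn2
        have ht0 := tau_pos hn
        have : (n : ℝ) - 1 / 2 ≤ |CLT.nsum Z J m w| := by
          unfold Int0 at hw
          rw [Set.mem_Ico, not_and_or, not_le, not_lt] at hw
          rcases hw with hw | hw
          · have := neg_abs_le (CLT.nsum Z J m w); linarith
          · have := le_abs_self (CLT.nsum Z J m w); linarith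
        rw [if_pos this]
    · have := tail_gauss hn
      unfold CT
      rw [add_div]
      linarith

end Crest.Agent.R063

end
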